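import Vale.Agent.P280.H127.Infty

/-!
P280 (B1), E6a: the points of the source line.
-/

open DirectSum Vale.Agent.P280.T Vale.Agent.P280.H939

namespace Vale.Agent.P280.H127

section
variable {M : Type} [AddCommGroup M] [DecidableEq M] {R : Type} [CommRing R] [Algebra ℂ R]
variable {𝒜 : ℕ × M → Submodule ℂ R} [GradedAlgebra 𝒜] {l : M →+ ℤ} {μ ω : M} {f f1 : R} {k : ℕ}
variable {φ : R →ₐ[ℂ] MvPolynomial (Fin 2) ℂ}

theorem low_mul {d d' : ℕ} {x y : R} (hx : x ∈ H587.co 𝒜 l (d, d • l μ))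
    (hy : y ∈ H587.co 𝒜 l (d', d' • l μ)) : x * y ∈ H587.co 𝒜 l (d + d', (d + d') • l μ) := by
  have h := SetLike.mul_mem_graded hx hy
  rwa [Prod.mk_add_mk, ← add_smul] at h

theorem low_pow {d : ℕ} {x : R} (hx : x ∈ H587.co 𝒜 l (d, d • l μ)) (n : ℕ) :
    x ^ n ∈ H587.co 𝒜 l (n * d, (n * d) • l μ) := by
  induction n with
  | zero =>
    have h : (1 : R) ∈ H587.co 𝒜 l (0, 0) := SetLike.one_mem_graded _
    rwa [pow_zero, zero_mul, zero_smul]
  | succ n ih =>
    rw [pow_succ, add_mul, one_mul]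
    exact low_mul ih hx

omit [GradedAlgebra 𝒜] in
theorem low_of_mem {d : ℕ} {m : M} {h : R} (hh : h ∈ 𝒜 (d, m)) (hm : l (m - d • μ) = 0) :
    h ∈ H587.co 𝒜 l (d, d • l μ) := by
  have h1 := H587.mem_co (l := l) hh
  rw [map_sub, map_nsmul, sub_eq_zero] at hm
  rwa [hm] at h1

theorem eq_of_phi (D : LData 𝒜 l μ ω f f1 k φ) {d : ℕ} {x y : R}
    (hx : x ∈ H587.co 𝒜 l (d, d • l μ)) (hy : y ∈ H587.co 𝒜 l (d, d • l μ)) (h : φ x = φ y) :
    x = y :=
  sub_eq_zero.1 (D.inj d _ (Submodule.sub_mem _ hx hy) (by rw [map_sub, h, sub_self]))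

/-- **(E6a)** the points of the lowest component are the points of the line. -/
theorem cover (D : LData 𝒜 l μ ω f f1 k φ) (hf : f ∈ 𝒜 (1, μ)) {q : R →ₐ[ℂ] ℂ}
    (hq : ¬ IsVertex 𝒜 q) (hq' : IsFixed (H587.co 𝒜 l) q (l μ)) :
    (q f ≠ 0 ∨ q f1 ≠ 0) ∧ ∃ s0 t0 : ℂ, (s0 ≠ 0 ∨ t0 ≠ 0) ∧
      q = (MvPolynomial.aeval ![s0, t0]).comp φ := by
  have hk := D.kpos
  have hfL : f ∈ H587.co 𝒜 l (1, 1 • l μ) :=
    low_of_mem hf (by rw [one_smul, sub_self, map_zero])
  have hf1L : f1 ∈ H587.co 𝒜 l (1, 1 • l μ) :=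
    low_of_mem D.f1mem (by rw [one_smul, add_sub_cancel_left, map_nsmul, D.lom, smul_zero])
  have hzero : ∀ (d : ℕ) (m : M), l (m - d • μ) ≠ 0 → ∀ h ∈ 𝒜 (d, m), q h = 0 := by
    intro d m hm h hh
    by_contra hne
    apply hm
    have h1 := hq' d (l m) h (H587.mem_co hh) hne
    rw [map_sub, map_nsmul, h1, sub_self]
  -- powers
  have hpow : ∀ (d : ℕ) (m : M), l (m - d • μ) = 0 → ∀ h ∈ 𝒜 (d, m), ∀ (c : ℂ) (i j : ℕ),
      i + j = d * k → φ h = MvPolynomial.C c * (MvPolynomial.X 0 ^ i * MvPolynomial.X 1 ^ j) →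
      q h ^ k = c ^ k * (q f ^ i * q f1 ^ j) := by
    intro d m hm h hh c i j hij hφ
    have h1 := low_pow (low_of_mem hh hm) k
    have h2 : c ^ k • (f ^ i * f1 ^ j) ∈ H587.co 𝒜 l (k * d, (k * d) • l μ) := by
      have h3 := low_mul (low_pow hfL i) (low_pow hf1L j)
      rw [mul_one, mul_one, hij, mul_comm d k] at h3
      exact Submodule.smul_mem _ _ h3
    have h3 : h ^ k = c ^ k • (f ^ i * f1 ^ j) := by
      refine eq_of_phi D h1 h2 ?_
      rw [map_pow, hφ, map_smul, map_mul, map_pow, map_pow, D.phif, D.phif1,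
        MvPolynomial.smul_eq_C_mul, mul_pow, mul_pow, ← pow_mul, ← pow_mul, ← pow_mul, ← pow_mul,
        mul_comm i k, mul_comm j k, map_pow]
    have h4 := congrArg q h3
    rwa [map_pow, map_smul, map_mul, map_pow, map_pow, smul_eq_mul] at h4
  have hcov : q f ≠ 0 ∨ q f1 ≠ 0 := by
    by_contra hcon
    push Not at hcon
    apply hq
    intro d m hd h hh
    by_cases h0 : h = 0
    · rw [h0, map_zero]
    by_cases hm : l (m - d • μ) = 0
    · obtain ⟨c, i, j, -, hij, -, hφ⟩ := D.low d m hm h hh h0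
      have h1 := hpow d m hm h hh c i j hij hφ
      have h2 : q f ^ i * q f1 ^ j = 0 := by
        rw [hcon.1, hcon.2, ← pow_add, hij, zero_pow (Nat.mul_pos hd hk).ne']
      rw [h2, mul_zero] at h1
      exact (pow_eq_zero_iff hk.ne').1 h1
    · exact hzero d m hm h hh
  refine ⟨hcov, ?_⟩
  -- it suffices to look at the low elements
  suffices hsuff : ∃ s0 t0 : ℂ, (s0 ≠ 0 ∨ t0 ≠ 0) ∧ ∀ (d : ℕ) (m : M), l (m - d • μ) = 0 →
      ∀ h ∈ 𝒜 (d, m), ∀ (c : ℂ) (i j : ℕ), i + j = d * k →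
      φ h = MvPolynomial.C c * (MvPolynomial.X 0 ^ i * MvPolynomial.X 1 ^ j) →
      q h = c * (s0 ^ i * t0 ^ j) by
    obtain ⟨s0, t0, h0, h1⟩ := hsuff
    refine ⟨s0, t0, h0, ?_⟩
    apply algHom_ext_graded 𝒜
    rintro ⟨d, m⟩ h hh
    change q h = MvPolynomial.aeval ![s0, t0] (φ h)
    by_cases hh0 : h = 0
    · rw [hh0, map_zero, map_zero, map_zero]
    by_cases hm : l (m - d • μ) = 0
    · obtain ⟨c, i, j, -, hij, -, hφ⟩ := D.low d m hm h hh hh0
      rw [h1 d m hm h hh c i j hij hφ, hφ, map_mul, map_mul, map_pow, map_pow,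
        MvPolynomial.aeval_X, MvPolynomial.aeval_X, MvPolynomial.aeval_C]
      rfl
    · rw [hzero d m hm h hh, D.zero d m hm h hh, map_zero]
  by_cases hqf : q f = 0
  · -- the point at infinity
    have hqf1 : q f1 ≠ 0 := by
      rcases hcov with h | h
      · exact absurd hqf h
      · exact h
    obtain ⟨t0, ht0⟩ := IsAlgClosed.exists_pow_nat_eq (q f1) hk
    refine ⟨0, t0, Or.inr ?_, ?_⟩
    · rintro rfl
      rw [zero_pow hk.ne'] at ht0
      exact hqf1 ht0.symm
    · intro d m hm h hh c i j hij hφ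
      by_cases hi : i = 0
      · subst hi
        rw [zero_add] at hij
        subst hij
        have h1 : h = c • f1 ^ d := by
          refine eq_of_phi D (low_of_mem hh hm) ?_ ?_
          · have h3 := low_pow hf1L d
            rw [mul_one] at h3
            exact Submodule.smul_mem _ _ h3
          · rw [hφ, map_smul, map_pow, D.phif1, MvPolynomial.smul_eq_C_mul, pow_zero, one_mul,
              ← pow_mul, mul_comm k d]
        rw [h1, map_smul, map_pow, smul_eq_mul, ← ht0, pow_zero, one_mul, ← pow_mul,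
          mul_comm k d]
      · have h1 := hpow d m hm h hh c i j hij hφ
        rw [hqf, zero_pow hi, zero_mul, mul_zero] at h1
        rw [zero_pow hi, zero_mul, mul_zero]
        exact (pow_eq_zero_iff hk.ne').1 h1
  · -- the other points
    obtain ⟨s0, hs0⟩ := IsAlgClosed.exists_pow_nat_eq (q f) hk
    have hs0' : s0 ≠ 0 := by
      rintro rfl
      rw [zero_pow hk.ne'] at hs0
      exact hqf hs0.symm
    obtain ⟨db, e, b, hb, hedb, hφb⟩ := D.unit
    refine ⟨s0, q b / s0 ^ e, Or.inl hs0', ?_⟩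
    intro d m hm h hh c i j hij hφ
    have hbL : b ∈ H587.co 𝒜 l (db, db • l μ) :=
      low_of_mem hb (by rw [add_sub_cancel_left, D.lom])
    have h1 : h * f ^ (db * j) ∈ H587.co 𝒜 l (d + db * j, (d + db * j) • l μ) := by
      have h3 := low_pow hfL (db * j)
      rw [mul_one] at h3
      exact low_mul (low_of_mem hh hm) h3
    have h2 : c • (f ^ d * b ^ j) ∈ H587.co 𝒜 l (d + db * j, (d + db * j) • l μ) := by
      have h3 := low_pow hfL d
      rw [mul_one] at h3
      have h4 := low_mul h3 (low_pow hbL j)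
      rw [mul_comm j db] at h4
      exact Submodule.smul_mem _ _ h4
    have hexp : i + k * (db * j) = k * d + e * j := by
      have h3 : k * (db * j) = e * j + j := by
        have h4 : k * (db * j) = (db * k) * j := by ring
        rw [h4, ← hedb]
        ring
      rw [h3, mul_comm k d, ← hij]
      ring
    have h3 : h * f ^ (db * j) = c • (f ^ d * b ^ j) := by
      refine eq_of_phi D h1 h2 ?_
      rw [map_mul, hφ, map_pow, map_smul, map_mul, map_pow, map_pow, D.phif, hφb,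
        MvPolynomial.smul_eq_C_mul, ← pow_mul, ← pow_mul, mul_pow, ← pow_mul]
      have h5 : (MvPolynomial.X 0 : MvPolynomial (Fin 2) ℂ) ^ i *
          MvPolynomial.X 0 ^ (k * (db * j)) =
          MvPolynomial.X 0 ^ (k * d) * MvPolynomial.X 0 ^ (e * j) := by
        rw [← pow_add, ← pow_add, hexp]
      linear_combination (MvPolynomial.C c * MvPolynomial.X 1 ^ j) * h5
    have h4 := congrArg q h3
    rw [map_mul, map_pow, map_smul, map_mul, map_pow, map_pow, smul_eq_mul, ← hs0, ← pow_mul,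
      ← pow_mul] at h4
    have h5 : s0 ^ (k * (db * j)) ≠ 0 := pow_ne_zero _ hs0'
    apply mul_right_cancel₀ h5
    rw [h4, div_pow, ← pow_mul]
    have h6 : s0 ^ (e * j) ≠ 0 := pow_ne_zero _ hs0'
    have h7 : s0 ^ i * s0 ^ (k * (db * j)) = s0 ^ (k * d) * s0 ^ (e * j) := by
      rw [← pow_add, ← pow_add, hexp]
    field_simp
    linear_combination (-(c * q b ^ j)) * h7

end

end Vale.Agent.P280.H127
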