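import Vale.Agent.P280.H127.Reg

/-!
P280, row R2: dual tangent vectors of homogeneous parameters at a regular fixed point.
-/

open DirectSum

namespace Vale.Agent.P280.H127

variable {R : Type*} [CommRing R] [Algebra ℂ R] {Λ : Type*} [AddCommGroup Λ] [DecidableEq Λ]
variable {𝒜 : Λ → Submodule ℂ R} [GradedAlgebra 𝒜]

/-- the ideal generated by homogeneous elements contains the components of its elements -/
theorem cp_mem_span_set {S : Set R} (hS : ∀ x ∈ S, ∃ v, x ∈ 𝒜 v) {x : R} (hx : x ∈ Ideal.span S)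
    (w : Λ) : cp 𝒜 w x ∈ Ideal.span S := by
  refine Submodule.span_induction (p := fun x _ => ∀ w, cp 𝒜 w x ∈ Ideal.span S) ?_ ?_ ?_ ?_ hx w
  · intro x hx w
    obtain ⟨v, hv⟩ := hS x hx
    rcases eq_or_ne v w with rfl | h
    · rw [cp_of_mem 𝒜 hv]; exact Ideal.subset_span hx
    · rw [cp_of_mem_ne 𝒜 hv h]; exact Ideal.zero_mem _
  · intro w
    have : cp 𝒜 w 0 = 0 := by simp [cp]
    rw [this]; exact Ideal.zero_mem _
  · intro x y _ _ hx hy w
    rw [cp_add]; exact Ideal.add_mem _ (hx w) (hy w)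
  · intro a x _ hx w
    classical
    rw [smul_eq_mul]
    have h1 : a * x = ∑ v ∈ (decompose 𝒜 x).support, a * cp 𝒜 v x := by
      rw [← Finset.mul_sum]
      congr 1
      exact (DirectSum.sum_support_decompose 𝒜 x).symm
    rw [h1, cp_sum]
    refine Ideal.sum_mem _ fun v _ => ?_
    rw [cp_mul_right 𝒜 (cp_mem 𝒜 v x)]
    exact Ideal.mul_mem_left _ _ (hx v)

/-- **Lemma A** with a denominator of weight zero -/
theorem lemmaA' [IsNoetherianRing R] {q : R →ₐ[ℂ] ℂ} (hq : Fix 𝒜 q) {n : ℕ} {u : Fin n → R}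
    {wt : Fin n → Λ} (G : Gens 𝒜 q u wt) {C : Set Λ} {J : Set (Fin n)}
    (hC : ∀ w ∈ C, ∀ i ∉ J, w - wt i ∈ C ∧ w - wt i ≠ 0) {w : Λ} (hw : w ∈ C) {b : R}
    (hb : b ∈ 𝒜 w) (hbm : b ∈ mx q) : ∃ t ∈ 𝒜 0, q t = 1 ∧ t * b ∈ Ideal.span (u '' J) := by
  obtain ⟨t, ht, h⟩ := lemmaA hq G hC hw hb hbm
  refine ⟨cp 𝒜 0 t, cp_mem 𝒜 0 t, by rw [hq.q_cp, ht], ?_⟩
  have h1 := cp_mem_span_set (𝒜 := 𝒜) (S := u '' J) (by
    rintro _ ⟨i, -, rfl⟩; exact ⟨wt i, G.hom i⟩) h w
  rwa [cp_mul_right 𝒜 hb, sub_self] at h1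

/-- tangent vectors (same text as `T.IsTangent`) -/
def Tan (q : R →ₐ[ℂ] ℂ) (v : R →ₗ[ℂ] ℂ) : Prop := ∀ a b : R, v (a * b) = q a * v b + q b * v a

theorem Tan.one {q : R →ₐ[ℂ] ℂ} {v : R →ₗ[ℂ] ℂ} (hv : Tan q v) : v 1 = 0 := by
  have h := hv 1 1
  rw [mul_one, map_one q, one_mul] at h
  exact left_eq_add.mp h

theorem Tan.sq {q : R →ₐ[ℂ] ℂ} {v : R →ₗ[ℂ] ℂ} (hv : Tan q v) {x : R} (hx : x ∈ mx q ^ 2) :
    v x = 0 := by
  rw [pow_two] at hx
  refine Submodule.mul_induction_on hx ?_ ?_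
  · intro a ha b hb
    rw [hv, mem_mx.mp ha, mem_mx.mp hb, zero_mul, zero_mul, add_zero]
  · intro x y hx hy
    rw [map_add, hx, hy, add_zero]

theorem sub_q_mem (q : R →ₐ[ℂ] ℂ) (x : R) : x - algebraMap ℂ R (q x) ∈ mx q := by
  rw [mem_mx, map_sub, AlgHom.commutes]
  simp

/-- parameters generate the maximal ideal modulo its square, with complex coefficients -/
theorem Gens.expand {q : R →ₐ[ℂ] ℂ} {n : ℕ} {u : Fin n → R} {wt : Fin n → Λ}
    (G : Gens 𝒜 q u wt) {x : R} (hx : x ∈ mx q) :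
    ∃ c : Fin n → ℂ, x - ∑ i, c i • u i ∈ mx q ^ 2 := by
  obtain ⟨s, -, hs1, hs⟩ := G.gen
  obtain ⟨r, hr⟩ := Ideal.mem_span_range_iff_exists_fun.mp (hs x hx)
  refine ⟨fun i => q (r i), ?_⟩
  have e : x - ∑ i, q (r i) • u i = -((s - algebraMap ℂ R (q s)) * x) +
      ∑ i, (r i - algebraMap ℂ R (q (r i))) * u i := by
    have e1 : ∑ i, (r i - algebraMap ℂ R (q (r i))) * u i = s * x - ∑ i, q (r i) • u i := by
      rw [← hr, ← Finset.sum_sub_distrib]
      exact Finset.sum_congr rfl fun i _ => by rw [sub_mul, Algebra.smul_def]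
    rw [e1, hs1, map_one]
    ring
  rw [e, pow_two]
  exact Ideal.add_mem _ ((Ideal.neg_mem_iff _).mpr (Ideal.mul_mem_mul (sub_q_mem q s) hx))
    (Ideal.sum_mem _ fun i _ => Ideal.mul_mem_mul (sub_q_mem q (r i)) (mem_mx.mpr (G.zero i)))

/-- **independence** of the parameters if their number is at most the height -/
theorem Gens.indep [IsNoetherianRing R] {q : R →ₐ[ℂ] ℂ} {n : ℕ} {u : Fin n → R} {wt : Fin n → Λ}
    (G : Gens 𝒜 q u wt) (hn : (n : ℕ∞) ≤ (mx q).height) {c : Fin n → ℂ}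
    (hc : ∑ i, c i • u i ∈ mx q ^ 2) : ∀ i, c i = 0 := by
  classical
  by_contra hcon
  push Not at hcon
  obtain ⟨j, hj⟩ := hcon
  set S : Finset R := (Finset.univ.erase j).image u with hS
  have hSn : S.card < n := by
    refine Finset.card_image_le.trans_lt ?_
    rw [Finset.card_erase_of_mem (Finset.mem_univ j), Finset.card_univ, Fintype.card_fin]
    have := j.pos
    omega
  have hui : ∀ i, i ≠ j → u i ∈ Ideal.span (S : Set R) := fun i hi =>
    Ideal.subset_span (by
      rw [hS, Finset.coe_image]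
      exact ⟨i, by simpa using hi, rfl⟩)
  have huj : u j ∈ Ideal.span (S : Set R) ⊔ mx q ^ 2 := by
    have e : u j = (c j)⁻¹ • ((∑ i, c i • u i) - ∑ i ∈ Finset.univ.erase j, c i • u i) := by
      rw [← Finset.add_sum_erase _ _ (Finset.mem_univ j), add_sub_cancel_right, smul_smul,
        inv_mul_cancel₀ hj, one_smul]
    rw [e, Algebra.smul_def]
    refine Ideal.mul_mem_left _ _ (Ideal.sub_mem _ (Ideal.mem_sup_right hc)
      (Ideal.mem_sup_left (Ideal.sum_mem _ fun i hi => ?_)))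
    rw [Algebra.smul_def]
    exact Ideal.mul_mem_left _ _ (hui i (Finset.ne_of_mem_erase hi))
  have hle : mx q ≤ Ideal.span (S : Set R) ⊔ mx q ^ 2 := by
    intro x hx
    obtain ⟨d, hd⟩ := G.expand hx
    have e : x = (x - ∑ i, d i • u i) + ∑ i, d i • u i := by ring
    rw [e]
    refine Ideal.add_mem _ (Ideal.mem_sup_right hd) (Ideal.sum_mem _ fun i _ => ?_)
    rw [Algebra.smul_def]
    refine Ideal.mul_mem_left _ _ ?_
    by_cases hi : i = j
    · rw [hi]; exact huj
    · exact Ideal.mem_sup_left (hui i hi)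
  obtain ⟨r, hr, hr'⟩ := Submodule.exists_sub_one_mem_and_smul_le_of_fg_of_le_sup (I := mx q)
    (N := Ideal.span (S : Set R)) (N' := mx q) (P := mx q) (IsNoetherian.noetherian _) le_rfl
    (by rw [smul_eq_mul, ← pow_two]; exact hle)
  have hr1 : q r = 1 := by
    rw [mem_mx, map_sub, map_one] at hr
    exact sub_eq_zero.mp hr
  have hmin : mx q ∈ (Ideal.span (S : Set R)).minimalPrimes := by
    refine ⟨⟨inferInstance, ?_⟩, ?_⟩
    · rw [Ideal.span_le, hS, Finset.coe_image]
      rintro _ ⟨i, -, rfl⟩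
      exact mem_mx.mpr (G.zero i)
    · rintro P ⟨hP, hSP⟩ hPq x hx
      have h1 : r * x ∈ P := hSP (hr' (Submodule.smul_mem_pointwise_smul x r _ hx))
      rcases hP.mem_or_mem h1 with h2 | h2
      · have h3 := mem_mx.mp (hPq h2)
        rw [hr1] at h3
        exact absurd h3 one_ne_zero
      · exact h2
  have h1 := Ideal.height_le_card_of_mem_minimalPrimes_span_finset hmin
  have h2 : (n : ℕ∞) ≤ S.card := hn.trans h1
  exact absurd (by exact_mod_cast h2 : n ≤ S.card) (not_le.mpr hSn)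

/-- **dual tangent vectors** -/
theorem Gens.exists_dual [IsNoetherianRing R] {q : R →ₐ[ℂ] ℂ} (hq : Fix 𝒜 q) {n : ℕ}
    {u : Fin n → R} {wt : Fin n → Λ} (G : Gens 𝒜 q u wt) (hn : (n : ℕ∞) ≤ (mx q).height) :
    ∃ v : Fin n → R →ₗ[ℂ] ℂ, (∀ i, Tan q (v i)) ∧ (∀ i j, v i (u j) = if i = j then 1 else 0) ∧
      (∀ i w, w ≠ wt i → ∀ x ∈ 𝒜 w, v i x = 0) ∧
      ∀ ξ : R →ₗ[ℂ] ℂ, Tan q ξ → ξ = ∑ i, ξ (u i) • v i := by
  classical
  set b : Option (Fin n) → R ⧸ (mx q ^ 2) := fun o =>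
    Ideal.Quotient.mk _ (o.elim 1 u) with hb
  have hmk : ∀ (c : Option (Fin n) → ℂ), ∑ o, c o • b o =
      Ideal.Quotient.mk _ (algebraMap ℂ R (c none) + ∑ i, c (some i) • u i) := by
    intro c
    rw [Fintype.sum_option, map_add, map_sum]
    congr 1
    · simp only [hb, Option.elim]
      rw [map_one, Algebra.smul_def, mul_one]
      rfl
  have hli : LinearIndependent ℂ b := by
    rw [Fintype.linearIndependent_iff]
    intro c hc
    rw [hmk, Ideal.Quotient.eq_zero_iff_mem] at hc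
    have h1 : c none = 0 := by
      have h2 : algebraMap ℂ R (c none) + ∑ i, c (some i) • u i ∈ mx q :=
        Ideal.pow_le_self two_ne_zero hc
      rw [mem_mx, map_add, AlgHom.commutes, map_sum] at h2
      simpa [G.zero] using h2
    rw [h1, map_zero, zero_add] at hc
    have h3 := G.indep hn hc
    rintro (_ | i)
    · exact h1
    · exact h3 i
  have hsp : ⊤ ≤ Submodule.span ℂ (Set.range b) := by
    rintro y -
    obtain ⟨x, rfl⟩ := Ideal.Quotient.mk_surjective y
    obtain ⟨c, hc⟩ := G.expand (sub_q_mem q x)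
    have e : Ideal.Quotient.mk (mx q ^ 2) x = ∑ o : Option (Fin n), (o.elim (q x) c) • b o := by
      rw [hmk, Ideal.Quotient.eq]
      have e2 : x - (algebraMap ℂ R (q x) + ∑ i, c i • u i) =
        x - algebraMap ℂ R (q x) - ∑ i, c i • u i := by ring
      simp only [Option.elim]
      rw [e2]; exact hc
    rw [e]
    exact Submodule.sum_mem _ fun o _ => Submodule.smul_mem _ _ (Submodule.subset_span ⟨o, rfl⟩)
  set B := Module.Basis.mk hli hsp with hB
  set π : R →ₗ[ℂ] R ⧸ (mx q ^ 2) := (Ideal.Quotient.mkₐ ℂ (mx q ^ 2)).toLinearMap with hπ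
  have hπb : ∀ o : Option (Fin n), π (o.elim 1 u) = B o := fun o => by
    rw [hB, Module.Basis.mk_apply]; rfl
  set v : Fin n → R →ₗ[ℂ] ℂ := fun i => (B.coord (some i)).comp π with hv
  have hv1 : ∀ i, v i 1 = 0 := by
    intro i
    have := hπb none
    simp only [Option.elim] at this
    simp only [hv, LinearMap.comp_apply, this, Module.Basis.coord_apply, Module.Basis.repr_self]
    simp
  have hv2 : ∀ i x, x ∈ mx q ^ 2 → v i x = 0 := by
    intro i x hx
    have : π x = 0 := Ideal.Quotient.eq_zero_iff_mem.mpr hx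
    simp only [hv, LinearMap.comp_apply, this, map_zero]
  have hvu : ∀ i j, v i (u j) = if i = j then 1 else 0 := by
    intro i j
    have := hπb (some j)
    simp only [Option.elim] at this
    simp only [hv, LinearMap.comp_apply, this, Module.Basis.coord_apply, Module.Basis.repr_self,
      Finsupp.single_apply, Option.some.injEq]
    exact if_congr eq_comm rfl rfl
  have hvT : ∀ i, Tan q (v i) := by
    intro i a b
    have e : a * b = (a - algebraMap ℂ R (q a)) * (b - algebraMap ℂ R (q b)) + q a • b + q b • a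
        - (q a * q b) • (1 : R) := by
      simp only [Algebra.smul_def, map_mul]; ring
    rw [e, map_sub, map_add, map_add, map_smul, map_smul, map_smul, hv1, hv2 i _ (by
      rw [pow_two]; exact Ideal.mul_mem_mul (sub_q_mem q a) (sub_q_mem q b))]
    simp only [smul_eq_mul, mul_zero, sub_zero, zero_add]
  refine ⟨v, hvT, hvu, ?_, ?_⟩
  · intro i w hw x hx
    obtain ⟨s, hs0, hs1, hs⟩ := G.gen
    have main : ∀ y ∈ 𝒜 w, y ∈ mx q → v i y = 0 := by
      intro y hy hym
      have h1 : s * y ∈ 𝒜 w := by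
        have := SetLike.mul_mem_graded hs0 hy
        rwa [zero_add] at this
      obtain ⟨r, hr, e⟩ := mem_span_hom G.hom (hs y hym) h1
      have h2 : v i (s * y) = v i y := by
        rw [hvT i, hs1, mem_mx.mp hym, one_mul, zero_mul, add_zero]
      rw [← h2, e, map_sum]
      refine Finset.sum_eq_zero fun j _ => ?_
      rw [hvT i, G.zero j, zero_mul, add_zero, hvu]
      split_ifs with hij
      · subst hij
        rw [hq _ (sub_ne_zero.mpr hw) _ (hr i), zero_mul]
      · rw [mul_zero]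
    rcases eq_or_ne w 0 with rfl | hw0
    · have h1 := main (x - algebraMap ℂ R (q x))
        (Submodule.sub_mem _ hx (SetLike.algebraMap_mem_graded 𝒜 _)) (sub_q_mem q x)
      rw [map_sub, Algebra.algebraMap_eq_smul_one, map_smul, hv1, smul_zero, sub_zero] at h1
      exact h1
    · exact main x hx (mem_mx.mpr (hq w hw0 x hx))
  · intro ξ hξ
    ext x
    obtain ⟨c, hc⟩ := G.expand (sub_q_mem q x)
    have hval : ∀ η : R →ₗ[ℂ] ℂ, Tan q η → η x = ∑ i, c i * η (u i) := by
      intro η hη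
      have h1 := hη.sq hc
      rw [map_sub, map_sub, Algebra.algebraMap_eq_smul_one, map_smul, hη.one, smul_zero, sub_zero,
        map_sum, sub_eq_zero] at h1
      rw [h1]
      exact Finset.sum_congr rfl fun i _ => by rw [map_smul, smul_eq_mul]
    rw [hval ξ hξ, LinearMap.sum_apply]
    refine Finset.sum_congr rfl fun i _ => ?_
    rw [LinearMap.smul_apply, hval (v i) (hvT i)]
    simp only [hvu, smul_eq_mul, mul_ite, mul_one, mul_zero, Finset.sum_ite_eq, Finset.mem_univ,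
      if_true]
    ring

end Vale.Agent.P280.H127
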