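import Vale.Agent.P280.H127.Cover

/-!
P280 (B1), E6b: gluing of the derivations on the two charts.
-/

open DirectSum Vale.Agent.P280.T Vale.Agent.P280.H939

namespace Vale.Agent.P280.H127

section
variable {M : Type} [AddCommGroup M] [DecidableEq M] {R : Type} [CommRing R] [Algebra ℂ R]
variable {𝒜 : ℕ × M → Submodule ℂ R} [GradedAlgebra 𝒜] {l L : M →+ ℤ} {μ ω : M} {f f1 : R}
variable {k : ℕ} {φ : R →ₐ[ℂ] MvPolynomial (Fin 2) ℂ} {p : R →ₐ[ℂ] ℂ} {n : ℕ} {u : Fin n → R}
variable {χ : Fin n → M}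

/-- elements of negative `l`-weight vanish -/
theorem co_nonneg (D : LData 𝒜 l μ ω f f1 k φ) {d : ℕ} {j : ℤ} {x : R}
    (hx : x ∈ H587.co 𝒜 l (d, j)) (hj : j < d • l μ) : x = 0 := by
  refine H587.co_induction (P := fun x : R => x = (0 : R)) rfl (fun a b ha hb => by rw [ha, hb, add_zero])
    ?_ hx
  intro m hm h hh
  by_contra hne
  have h1 := D.nonneg d m h hh hne
  rw [map_sub, map_nsmul, hm] at h1
  omega

/-- **(E6b)** gluing -/
theorem glue (C : CData 𝒜 L μ p f u χ) (D : LData 𝒜 l μ ω f f1 k φ) {a : ℤ}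
    (hle : ∀ i : {i : Fin n // 0 < L (χ i)}, l (χ i) ≤ a) (ha : 0 < a) {N : ℕ}
    {D0 D1 : Derivation ℂ R R}
    (hD0 : ∀ (d : ℕ) (m : ℤ), ∀ h ∈ H587.co 𝒜 l (d, m),
      D0 h ∈ H587.co 𝒜 l (d + N, m + N • l μ - a))
    (hD1 : ∀ (d : ℕ) (m : ℤ), ∀ h ∈ H587.co 𝒜 l (d, m),
      D1 h ∈ H587.co 𝒜 l (d + N, m + N • l μ - a))
    {δ : R → MvPolynomial (Fin 2) ℂ} (h0 : ∀ h, φ (D0 h) = φ f ^ N * δ h)
    (h1 : ∀ h, φ (D1 h) = φ f1 ^ N * δ h) : ∀ h, f1 ^ N * D0 h = f ^ N * D1 h := by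
  have hdom := C.dom
  have hfL : f ∈ H587.co 𝒜 l (1, 1 • l μ) :=
    low_of_mem C.hf (by rw [one_smul, sub_self, map_zero])
  have hf1L : f1 ∈ H587.co 𝒜 l (1, 1 • l μ) :=
    low_of_mem D.f1mem (by rw [one_smul, add_sub_cancel_left, map_nsmul, D.lom, smul_zero])
  -- weights at most `a`
  have hsmall : ∀ (d : ℕ) (j : ℤ), j ≤ d • l μ + a → ∀ h ∈ H587.co 𝒜 l (d, j),
      f1 ^ N * D0 h = f ^ N * D1 h := by
    intro d j hj h hh
    have e0 := hD0 d j h hh
    have e1 := hD1 d j h hh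
    rcases hj.lt_or_eq with hlt | heq
    · have hneg : j + N • l μ - a < (d + N) • l μ := by
        rw [add_smul]
        linarith
      rw [co_nonneg D e0 hneg, co_nonneg D e1 hneg, mul_zero, mul_zero]
    · have hidx : j + N • l μ - a = (d + N) • l μ := by
        rw [add_smul, heq]
        ring
      rw [hidx] at e0 e1
      have hN : ∀ g : R, g ∈ H587.co 𝒜 l (1, 1 • l μ) → g ^ N ∈ H587.co 𝒜 l (N, N • l μ) := by
        intro g hg
        have h3 := low_pow hg N
        rwa [mul_one] at h3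
      refine eq_of_phi D (low_mul (hN f1 hf1L) e0) (low_mul (hN f hfL) e1) ?_
      rw [map_mul, map_mul, map_pow, map_pow, h0, h1]
      ring
  let E : Derivation ℂ R R := f1 ^ N • D0 - f ^ N • D1
  have hE : ∀ h, E h = f1 ^ N * D0 h - f ^ N * D1 h := fun h => rfl
  suffices hE0 : ∀ h, E h = 0 by
    intro h
    exact sub_eq_zero.1 (hE0 h)
  have hEf : E f = 0 := by
    rw [hE, hsmall 1 (1 • l μ) (by linarith) f hfL, sub_self]
  let Kf := FractionRing R
  have hKinj : Function.Injective (algebraMap R Kf) := IsFractionRing.injective R Kf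
  have hF : algebraMap R Kf f ≠ 0 := by
    intro h
    exact C.f_ne (hKinj (by rw [h, map_zero]))
  obtain ⟨J, hJ⟩ := C.exists_jj hKinj hF
  intro h
  have key : ∃ N' : ℕ, E (f ^ N' * h) = 0 := by
    refine C.chart_ind' hKinj hF (P := fun r _ => E r = 0) ?_ ?_ ?_ hEf ?_ ?_ (hJ h)
    · intro c
      exact E.map_algebraMap c
    · intro r s _ _ h2 h3
      rw [map_add, h2, h3, add_zero]
    · intro r s _ _ h2 h3
      rw [Derivation.leibniz, h2, h3, smul_zero, smul_zero, add_zero]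
    · intro r _ h2
      rw [Derivation.leibniz, h2, hEf, smul_zero, smul_zero, add_zero]
    · intro i N' b hb _
      have h2 := H587.mem_co (l := l) hb
      have h3 := hsmall N' (l (N' • μ + χ i)) (by
        rw [map_add, map_nsmul]
        have := hle i
        linarith) b h2
      rw [hE, h3, sub_self]
  obtain ⟨N', hN'⟩ := key
  rw [Derivation.leibniz, smul_eq_mul, smul_eq_mul] at hN'
  have h2 : E (f ^ N') = 0 := by
    rw [Derivation.leibniz_pow, hEf, smul_zero, smul_zero]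
  rw [h2, mul_zero, add_zero] at hN'
  exact (mul_eq_zero.1 hN').resolve_left (pow_ne_zero _ C.f_ne)

end

end Vale.Agent.P280.H127
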