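import Vale.Agent.P280.H127.Wts

/-!
P280, row R2 over the definitions `T/Defs`: the weight zero, incoming points.
-/

set_option linter.unusedSectionVars false

open DirectSum

namespace Vale.Agent.P280.H127

open Vale.Agent.P280.T

variable {M : Type} [AddCommGroup M] [DecidableEq M] {R : Type} [CommRing R] [Algebra ℂ R]
variable {𝒜 : ℕ × M → Submodule ℂ R} [GradedAlgebra 𝒜]

/-- a non-vertex: some homogeneous element of positive degree is not zero -/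
theorem exists_of_not_vertex {q : R →ₐ[ℂ] ℂ} (hv : ¬ IsVertex 𝒜 q) :
    ∃ (d : ℕ) (m : M), 0 < d ∧ ∃ h ∈ 𝒜 (d, m), q h ≠ 0 := by
  unfold IsVertex at hv
  push Not at hv
  exact hv

/-- **isolated fixed point**: if zero is not a tangent weight then exactly one parameter has weight
zero -/
theorem exists_unique_zero (hX : IsTorusManifold 𝒜) {q : R →ₐ[ℂ] ℂ} {μ : M}
    (hv : ¬ IsVertex 𝒜 q) (hq : IsFixed 𝒜 q μ) {n : ℕ} {u : Fin n → R} {wt : Fin n → M}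
    (G : Gens (coarse 𝒜 (rl (AddMonoidHom.id M) μ)) q u wt) (hn : (n : ℕ∞) = (mx q).height)
    (h0 : ¬ TangentWeight 𝒜 q μ 0) : ∃! i, wt i = 0 := by
  obtain ⟨E, hE, hE'⟩ := exists_euler 𝒜 q
  have hEw : HasWeight 𝒜 μ 0 E := by
    intro d m h hh hne
    rw [hE' d m h hh] at hne
    rw [add_zero]
    exact hq d m h hh (right_ne_zero_of_mul hne)
  have hEne : E ≠ 0 := by
    rintro rfl
    obtain ⟨d, m, hd, h, hh, hne⟩ := exists_of_not_vertex hv
    have h1 := hE' d m h hh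
    rw [LinearMap.zero_apply] at h1
    rcases mul_eq_zero.mp h1.symm with h2 | h2
    · exact hd.ne' (by exact_mod_cast h2)
    · exact hne h2
  obtain ⟨i, hi⟩ := wt_of_weight hX (fix_of_isFixed hq) G hn hE hEw hEne
  refine ⟨i, hi, fun j hj => ?_⟩
  -- every weight vector of weight zero is a multiple of `E`
  have key : ∀ v : R →ₗ[ℂ] ℂ, IsTangent q v → HasWeight 𝒜 μ 0 v → ∃ c : ℂ, v = c • E := by
    intro v hv1 hv2
    have h1 : ¬ ∀ c : ℂ, ∃ (d : ℕ) (m : M), ∃ h ∈ 𝒜 (d, m), v h ≠ c * d * q h :=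
      fun h => h0 ⟨v, hv1, hv2, h⟩
    push Not at h1
    obtain ⟨c, hc⟩ := h1
    refine ⟨c, ?_⟩
    ext x
    refine hom_ind' 𝒜 (P := fun x => v x = (c • E) x) (by simp) (fun x y hx hy => by
      rw [map_add, map_add, hx, hy]) ?_ x
    rintro ⟨d, m⟩ x hx
    rw [hc d m x hx, LinearMap.smul_apply, hE' d m x hx, smul_eq_mul]
    ring
  obtain ⟨vi, hvi, hvi', hviu, -⟩ := exists_weight_vector hX (fix_of_isFixed hq) G hn i
  obtain ⟨vj, hvj, hvj', hvju, -⟩ := exists_weight_vector hX (fix_of_isFixed hq) G hn j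
  rw [hi] at hvi'
  rw [hj] at hvj'
  obtain ⟨ci, hci⟩ := key vi hvi hvi'
  obtain ⟨cj, hcj⟩ := key vj hvj hvj'
  by_contra hne
  have a1 : ci * E (u i) = 1 := by
    have := hviu i
    rw [if_pos rfl, hci, LinearMap.smul_apply, smul_eq_mul] at this
    exact this
  have a2 : cj * E (u j) = 1 := by
    have := hvju j
    rw [if_pos rfl, hcj, LinearMap.smul_apply, smul_eq_mul] at this
    exact this
  have a3 : ci * E (u j) = 0 := by
    have := hviu j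
    rw [if_neg (Ne.symm hne), hci, LinearMap.smul_apply, smul_eq_mul] at this
    exact this
  rcases mul_eq_zero.mp a3 with h | h
  · rw [h, zero_mul] at a1; exact zero_ne_one a1
  · rw [h, mul_zero] at a2; exact zero_ne_one a2

/-- **incoming points, one parameter group** `w` with slope `γ` at `x`: if some nonzero tangent
vector has negative weight then some other point converges to `x` -/
theorem incoming_w (hX : IsTorusManifold 𝒜) {x : R →ₐ[ℂ] ℂ} (hv : ¬ IsVertex 𝒜 x) {w : M →+ ℤ}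
    {γ : ℤ} (hx : ∀ (d : ℕ) (m : M), ∀ h ∈ 𝒜 (d, m), x h ≠ 0 → w m = d • γ) {ξ : R →ₗ[ℂ] ℂ}
    {k : ℤ} (hξ : IsTangent x ξ)
    (hk : ∀ (d : ℕ) (m : M), ∀ h ∈ 𝒜 (d, m), ξ h ≠ 0 → w m = d • γ + k) (hne : ξ ≠ 0)
    (hneg : k < 0) : ∃ z : R →ₐ[ℂ] ℂ, z ≠ x ∧
      (∀ (d : ℕ) (m : M), ∀ h ∈ 𝒜 (d, m), w m = d • γ → z h = x h) ∧
      (∀ (d : ℕ) (m : M), ∀ h ∈ 𝒜 (d, m), z h ≠ 0 → w m ≤ d • γ) ∧ ¬ IsVertex 𝒜 z ∧
      ¬ SamePoint 𝒜 x z := by
  have := noeth hX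
  have := hX.finiteType
  have hfix : Fix (coarse 𝒜 (rl w γ)) x := fix_iff.mpr hx
  obtain ⟨n, u, wt, G, hn⟩ := exists_params_T hX hv hfix
  obtain ⟨i, hi⟩ := wt_of_weight hX hfix G hn hξ hk hne
  obtain ⟨z, hzx, h0, hpos⟩ := incoming hfix G hn.le ⟨i, hi ▸ hneg⟩
  have e0 : ∀ (d : ℕ) (m : M), ∀ h ∈ 𝒜 (d, m), w m = d • γ → z h = x h := by
    intro d m h hh hm
    refine h0 h (mem_coarse hh ?_)
    rw [rl_apply, hm, sub_self]
  have epos : ∀ (d : ℕ) (m : M), ∀ h ∈ 𝒜 (d, m), z h ≠ 0 → w m ≤ d • γ := by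
    intro d m h hh hz
    by_contra hcon
    push Not at hcon
    exact hz (hpos (w m - d • γ) (sub_pos.mpr hcon) h (mem_coarse hh (rl_apply w γ d m)))
  refine ⟨z, hzx, e0, epos, ?_, ?_⟩
  · intro hzv
    obtain ⟨d, m, hd, h, hh, hne'⟩ := exists_of_not_vertex hv
    have h1 := e0 d m h hh (hx d m h hh hne')
    rw [hzv d m hd h hh] at h1
    exact hne' h1.symm
  · rintro ⟨c, hc0, hc⟩
    apply hzx
    refine algHom_ext_hom 𝒜 fun i a ha => ?_
    obtain ⟨d, m⟩ := i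
    by_cases hm : w m = d • γ
    · exact e0 d m a ha hm
    · have h1 : x a = 0 := by
        by_contra h2
        exact hm (hx d m a ha h2)
      rw [hc d m a ha, h1, mul_zero]

/-- **incoming points** over `ℤ` : if `x` is a fixed non-vertex and has a negative tangent weight
then some point `z`, not the same point, converges to `x` -/
theorem incoming_T {𝒜 : ℕ × ℤ → Submodule ℂ R} [GradedAlgebra 𝒜] (hX : IsTorusManifold 𝒜)
    {x : R →ₐ[ℂ] ℂ} (hv : ¬ IsVertex 𝒜 x) {ν : ℤ} (hx : IsFixed 𝒜 x ν) {χ : ℤ}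
    (hχ : TangentWeight 𝒜 x ν χ) (hneg : χ < 0) : ∃ z : R →ₐ[ℂ] ℂ, z ≠ x ∧
      (∀ (d : ℕ) (m : ℤ), ∀ h ∈ 𝒜 (d, m), m = d • ν → z h = x h) ∧
      (∀ (d : ℕ) (m : ℤ), ∀ h ∈ 𝒜 (d, m), z h ≠ 0 → m ≤ d • ν) ∧ ¬ IsVertex 𝒜 z ∧
      ¬ SamePoint 𝒜 x z := by
  obtain ⟨ξ, hξ, hw, hne⟩ := hχ
  refine incoming_w hX hv (w := AddMonoidHom.id ℤ) (γ := ν) (k := χ) hx hξ hw ?_ hneg
  rintro rfl
  obtain ⟨d, m, h, -, h1⟩ := hne 0
  simp at h1

end Vale.Agent.P280.H127
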