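import Vale.Agent.P280.H127.Inc

/-!
P280, row R2 (e'): incoming points, with a set of forbidden weights.
-/

open DirectSum

namespace Vale.Agent.P280.H127

variable {R : Type} [CommRing R] [Algebra ℂ R] {Λ : Type} [AddCommGroup Λ] [DecidableEq Λ]

/-- **incoming points** which do not see the weights in `C` -/
theorem incoming_C [IsNoetherianRing R] [Algebra.FiniteType ℂ R] {𝒜 : Λ → Submodule ℂ R}
    [GradedAlgebra 𝒜] {q : R →ₐ[ℂ] ℂ} (hq : Fix 𝒜 q) {n : ℕ} {u : Fin n → R} {wt : Fin n → Λ}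
    (G : Gens 𝒜 q u wt) (hn : (n : ℕ∞) ≤ (mx q).height) {C : Set Λ} (h0 : (0 : Λ) ∉ C)
    (hC : ∀ w, (w ∈ C ∨ w = 0) → ∀ i, wt i ∉ C → wt i ≠ 0 → w - wt i ∈ C)
    (hneg : ∃ i, wt i ∉ C ∧ wt i ≠ 0) :
    ∃ z : R →ₐ[ℂ] ℂ, z ≠ q ∧ (∀ x ∈ 𝒜 0, z x = q x) ∧ ∀ w ∈ C, ∀ x ∈ 𝒜 w, z x = 0 := by
  classical
  set S : Finset (Fin n) := Finset.univ.filter fun i => wt i ∈ C ∨ wt i = 0 with hS
  have hSc : S.card < n := by
    obtain ⟨i, hi, hi0⟩ := hneg
    have : S ⊂ Finset.univ := by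
      refine Finset.filter_ssubset.mpr ⟨i, Finset.mem_univ _, ?_⟩
      rintro (h | h)
      · exact hi h
      · exact hi0 h
    simpa using Finset.card_lt_card this
  set J : Ideal R := Ideal.span {x | ∃ w : Λ, (w ∈ C ∨ w = 0) ∧ x ∈ 𝒜 w ∧ x ∈ mx q} with hJ
  have hloc0 : ∀ w : Λ, (w ∈ C ∨ w = 0) → ∀ b ∈ 𝒜 w, b ∈ mx q →
      ∃ t, q t ≠ 0 ∧ t * b ∈ Ideal.span ((S.image u : Finset R) : Set R) := by
    intro w hw b hb hbm
    obtain ⟨t, ht, h⟩ := lemmaA hq G (C := {w | w ∈ C ∨ w = 0}) (J := {i | wt i ∈ C ∨ wt i = 0})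
      (fun w hw i hi => by
        simp only [Set.mem_ofPred_eq] at hw hi ⊢
        have h1 := hC w hw i (fun h => hi (Or.inl h)) fun h => hi (Or.inr h)
        exact ⟨Or.inl h1, fun h => h0 (h ▸ h1)⟩) hw hb hbm
    refine ⟨t, by rw [ht]; exact one_ne_zero, ?_⟩
    have e : ((S.image u : Finset R) : Set R) = u '' {i | wt i ∈ C ∨ wt i = 0} := by
      rw [Finset.coe_image, hS]
      congr 1
      ext i
      simp
    rw [e]
    exact h
  have hloc : ∀ b ∈ J, ∃ t, q t ≠ 0 ∧ t * b ∈ Ideal.span ((S.image u : Finset R) : Set R) := by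
    intro b hb
    refine Submodule.span_induction (p := fun b _ => ∃ t, q t ≠ 0 ∧
      t * b ∈ Ideal.span ((S.image u : Finset R) : Set R)) ?_ ?_ ?_ ?_ hb
    · rintro x ⟨w, hw, hx, hxm⟩
      exact hloc0 w hw x hx hxm
    · exact ⟨1, by simp, by simp⟩
    · rintro x y _ _ ⟨t, ht, h⟩ ⟨t', ht', h'⟩
      refine ⟨t * t', by rw [map_mul]; exact mul_ne_zero ht ht', ?_⟩
      have e : t * t' * (x + y) = t' * (t * x) + t * (t' * y) := by ring
      rw [e]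
      exact Ideal.add_mem _ (Ideal.mul_mem_left _ _ h) (Ideal.mul_mem_left _ _ h')
    · rintro a x _ ⟨t, ht, h⟩
      refine ⟨t, ht, ?_⟩
      rw [smul_eq_mul, mul_left_comm]
      exact Ideal.mul_mem_left _ _ h
  have hcard : ((S.image u).card : ℕ∞) < (mx q).height := by
    refine lt_of_lt_of_le ?_ hn
    exact_mod_cast Finset.card_image_le.trans_lt hSc
  obtain ⟨P, hP, hJP, hPq, hne⟩ := exists_point hcard (by
    rw [Ideal.span_le, Finset.coe_image]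
    rintro _ ⟨i, -, rfl⟩
    exact mem_mx.mpr (G.zero i)) hloc
  obtain ⟨z, hz, hzq⟩ := exists_hom_ne hP hne hPq
  refine ⟨z, hzq, ?_, ?_⟩
  · intro x hx
    have h1 : x - algebraMap ℂ R (q x) ∈ J := by
      refine Ideal.subset_span ⟨0, Or.inr rfl, ?_, ?_⟩
      · exact Submodule.sub_mem _ hx (SetLike.algebraMap_mem_graded 𝒜 _)
      · rw [mem_mx, map_sub, AlgHom.commutes]
        simp
    have h2 := mem_mx.mp (hz (hJP h1))
    rw [map_sub, AlgHom.commutes] at h2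
    simpa [sub_eq_zero] using h2
  · intro w hw x hx
    have hw0 : w ≠ 0 := fun h => h0 (h ▸ hw)
    exact mem_mx.mp (hz (hJP (Ideal.subset_span ⟨w, Or.inl hw, hx, mem_mx.mpr (hq w hw0 x hx)⟩)))

end Vale.Agent.P280.H127
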