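import Vale.Agent.P280.H939.E3b
import Vale.Agent.P280.H587.CorC

/-!
P280 (B1), E4: the point at infinity of the source line and its chart.
-/

open DirectSum Vale.Agent.P280.T Vale.Agent.P280.H939

namespace Vale.Agent.P280.H127

section
variable {M : Type} [AddCommGroup M] [DecidableEq M] {R : Type} [CommRing R] [Algebra ℂ R]
variable {𝒜 : ℕ × M → Submodule ℂ R} [GradedAlgebra 𝒜] {l : M →+ ℤ} {μ ω : M} {f f1 : R} {k : ℕ}
variable {φ : R →ₐ[ℂ] MvPolynomial (Fin 2) ℂ}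

theorem evt_C (c : ℂ) : evt (MvPolynomial.C c) = Polynomial.C c := by
  unfold evt
  rw [MvPolynomial.aeval_C]
  rfl

omit [DecidableEq M] in
theorem wt_infty {ω μ : M} {k d j i : ℕ} (hij : i + j = d * k) :
    d • μ + j • ω - d • (μ + k • ω) = -(i • ω) := by
  rw [smul_add, smul_smul, ← hij, add_smul]
  abel

/-- elements whose weight relative to infinity is killed by `l` -/
theorem ld_low_infty (D : LData 𝒜 l μ ω f f1 k φ) {g : M →+ ℤ} (hω : 0 < g ω) {ψ : M}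
    (hψ : l ψ = 0) {x : R} (hx : x ∈ coarse 𝒜 (rw' (μ + k • ω)) ψ) :
    ∃ (c : ℂ) (r : ℕ), evt (φ x) = Polynomial.C c * Polynomial.X ^ r ∧
      (c ≠ 0 → ψ = -(r • ω)) := by
  refine coarse_induction (P := fun x => ∃ (c : ℂ) (r : ℕ),
    evt (φ x) = Polynomial.C c * Polynomial.X ^ r ∧ (c ≠ 0 → ψ = -(r • ω))) ?_ ?_ ?_ hx
  · exact ⟨0, 0, by simp, fun h => absurd rfl h⟩
  · rintro a b ⟨c, r, h1, h2⟩ ⟨c', r', h1', h2'⟩
    by_cases hc : c = 0
    · refine ⟨c', r', ?_, h2'⟩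
      rw [map_add, map_add, h1, h1', hc, map_zero, zero_mul, zero_add]
    · by_cases hc' : c' = 0
      · refine ⟨c, r, ?_, h2⟩
        rw [map_add, map_add, h1, h1', hc', map_zero, zero_mul, add_zero]
      · have h3 := (h2 hc).symm.trans (h2' hc')
        have h4 : r = r' := by
          have h5 := congrArg g h3
          rw [map_neg, map_neg, map_nsmul, map_nsmul, nsmul_eq_mul, nsmul_eq_mul] at h5
          have h6 := mul_right_cancel₀ hω.ne' (neg_inj.1 h5)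
          exact_mod_cast h6
        subst h4
        refine ⟨c + c', r, ?_, fun _ => h2 hc⟩
        rw [map_add, map_add, h1, h1', map_add, add_mul]
  · rintro ⟨d, m⟩ hi h hh
    by_cases h0 : h = 0
    · refine ⟨0, 0, by rw [h0]; simp, fun h => absurd rfl h⟩
    rw [rw'_apply] at hi
    have hl : l (m - d • μ) = 0 := by
      have h1 : m - d • μ = ψ + (d * k) • ω := by
        rw [← hi, smul_add, smul_smul]
        abel
      rw [h1, map_add, map_nsmul, D.lom, hψ, smul_zero, add_zero]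
    obtain ⟨c, i, j, -, hij, hm, hφ⟩ := D.low d m hl h hh h0
    refine ⟨c, i, ?_, fun _ => ?_⟩
    · rw [hφ, map_mul, map_mul, map_pow, map_pow, evt_zero, evt_one, evt_C, one_pow, mul_one]
    · rw [← hi, hm]
      exact wt_infty hij

/-- elements whose weight relative to infinity is not killed by `l` -/
theorem ld_zero_infty (D : LData 𝒜 l μ ω f f1 k φ) {ψ : M} (hψ : l ψ ≠ 0) {x : R}
    (hx : x ∈ coarse 𝒜 (rw' (μ + k • ω)) ψ) : φ x = 0 := by
  refine coarse_induction (P := fun x => φ x = 0) (map_zero _)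
    (fun a b ha hb => by rw [map_add, ha, hb, add_zero]) ?_ hx
  rintro ⟨d, m⟩ hi h hh
  rw [rw'_apply] at hi
  refine D.zero d m ?_ h hh
  have h1 : m - d • μ = ψ + (d * k) • ω := by
    rw [← hi, smul_add, smul_smul]
    abel
  rwa [h1, map_add, map_nsmul, D.lom, smul_zero, add_zero]

/-- the point at infinity -/
noncomputable def infty (φ : R →ₐ[ℂ] MvPolynomial (Fin 2) ℂ) : R →ₐ[ℂ] ℂ :=
  (MvPolynomial.aeval ![0, 1]).comp φ

theorem ld_infty_f1 (D : LData 𝒜 l μ ω f f1 k φ) : infty φ f1 = 1 := by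
  change MvPolynomial.aeval ![0, 1] (φ f1) = 1
  rw [D.phif1, map_pow, MvPolynomial.aeval_X]
  simp

theorem ld_infty_f (D : LData 𝒜 l μ ω f f1 k φ) : infty φ f = 0 := by
  change MvPolynomial.aeval ![0, 1] (φ f) = 0
  rw [D.phif, map_pow, MvPolynomial.aeval_X]
  simp [D.kpos.ne']

theorem ld_infty_vertex (D : LData 𝒜 l μ ω f f1 k φ) : ¬ IsVertex 𝒜 (infty φ) := by
  intro h
  have h1 := h 1 _ one_pos f1 D.f1mem
  rw [(ld_infty_f1 D)] at h1
  exact one_ne_zero h1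

theorem ld_infty_fixed (D : LData 𝒜 l μ ω f f1 k φ) :
    IsFixed 𝒜 (infty φ) (μ + k • ω) := by
  intro d m h hh hne
  have h0 : h ≠ 0 := by
    rintro rfl
    exact hne (map_zero _)
  have hl : l (m - d • μ) = 0 := by
    by_contra hl
    apply hne
    change MvPolynomial.aeval ![0, 1] (φ h) = 0
    rw [D.zero d m hl h hh, map_zero]
  obtain ⟨c, i, j, -, hij, hm, hφ⟩ := D.low d m hl h hh h0
  have hi : i = 0 := by
    by_contra hi
    apply hne
    change MvPolynomial.aeval ![0, 1] (φ h) = 0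
    rw [hφ, map_mul, map_mul, map_pow, MvPolynomial.aeval_X]
    simp [hi]
  have h1 := wt_infty (μ := μ) (ω := ω) hij
  rw [hi, zero_smul, neg_zero, ← hm] at h1
  exact sub_eq_zero.1 h1

/-- weights at infinity -/
theorem ld_infty_nonneg (D : LData 𝒜 l μ ω f f1 k φ) {χ : M}
    (hχ : TangentWeight 𝒜 (infty φ) (μ + k • ω) χ) : 0 ≤ l χ := by
  obtain ⟨v, hv, hw, hc⟩ := hχ
  obtain ⟨d, m, h, hh, hne⟩ := hc 0
  rw [zero_mul, zero_mul] at hne
  have h0 : h ≠ 0 := by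
    rintro rfl
    exact hne (map_zero _)
  have h1 := D.nonneg d m h hh h0
  have h2 := hw d m h hh hne
  have h3 : m - d • μ = χ + (d * k) • ω := by
    rw [h2, smul_add, smul_smul]
    abel
  rwa [h3, map_add, map_nsmul, D.lom, smul_zero, add_zero] at h1

/-- **(E4)** the chart at infinity. -/
theorem exists_infty (hX : IsTorusManifold 𝒜) {g : M →+ ℤ} {N : ℤ}
    (hN : ∀ (x : R →ₐ[ℂ] ℂ) (ν χ : M), ¬ IsVertex 𝒜 x → IsFixed 𝒜 x ν → TangentWeight 𝒜 x ν χ →
      |g χ| < N) {p : R →ₐ[ℂ] ℂ} {a : ℤ} (hs : IsSource 𝒜 (N • l + g) p μ a) {n : ℕ}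
    {u : Fin n → R} {χ : Fin n → M} (C : CData 𝒜 (N • l + g) μ p f u χ) (hω : 0 < g ω)
    (D : LData 𝒜 l μ ω f f1 k φ)
    (K1 : ∀ (x : R →ₐ[ℂ] ℂ) (ν χ χ' : M), ¬ IsVertex 𝒜 x → IsFixed 𝒜 x ν → l ν = l μ →
      TangentWeight 𝒜 x ν χ → TangentWeight 𝒜 x ν χ' → l χ = 0 → l χ' = 0 → χ = χ')
    (K2 : ∀ (x : R →ₐ[ℂ] ℂ) (ν χ : M) (v v' : R →ₗ[ℂ] ℂ), ¬ IsVertex 𝒜 x → IsFixed 𝒜 x ν →
      l ν = l μ → l χ = 0 → χ ≠ 0 → IsTangent x v → HasWeight 𝒜 ν χ v → IsTangent x v' →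
      HasWeight 𝒜 ν χ v' → ∃ c c' : ℂ, (c ≠ 0 ∨ c' ≠ 0) ∧ ∀ h, c * v h + c' * v' h = 0) :
    ∃ (L' : M →+ ℤ) (q : R →ₐ[ℂ] ℂ) (n' : ℕ) (u' : Fin n' → R) (χ' : Fin n' → M)
      (i1 : {i : Fin n' // 0 < L' (χ' i)}) (c : ℂ), CData 𝒜 L' (μ + k • ω) q f1 u' χ' ∧
      l (χ' i1) = 0 ∧ (∀ i : {i : Fin n' // 0 < L' (χ' i)}, i ≠ i1 → 0 < l (χ' i)) ∧ c ≠ 0 ∧
      evt (φ (u' i1)) = Polynomial.C c * Polynomial.X ∧ q = infty φ := by
  have hdom := hX.domain
  have hq0 := (ld_infty_vertex D)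
  have hq := (ld_infty_fixed D)
  have hlq : l (μ + k • ω) = l μ := by
    rw [map_add, map_nsmul, D.lom, smul_zero, add_zero]
  -- a negative weight
  have hsame : ¬ SamePoint 𝒜 p (infty φ) := by
    rintro ⟨c, hc, hcx⟩
    have h1 := hcx 1 μ f C.hf
    rw [(ld_infty_f D), C.src.pf, mul_one, pow_one] at h1
    exact hc h1.symm
  obtain ⟨χ0, hχ0, hneg⟩ := H587.exists_neg_of_source hX hs hq0 hq hsame
  have hLs : ∀ m, (N • l + g) m = N * l m + g m := fun m => by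
    change N • l m + g m = _
    rw [smul_eq_mul]
  rw [hLs] at hneg
  have hg0 := abs_lt.1 (hN _ _ _ hq0 hq hχ0)
  have hNpos : 0 < N := lt_of_le_of_lt (abs_nonneg _) (hN _ _ _ hq0 hq hχ0)
  have hl0 : l χ0 = 0 := by
    by_contra hne
    have h1 : 1 ≤ l χ0 := by
      have := ld_infty_nonneg D hχ0
      omega
    nlinarith
  have hgneg : g χ0 < 0 := by
    rw [hl0, mul_zero, zero_add] at hneg
    exact hneg
  -- the new one-parameter group
  let L' : M →+ ℤ := N • l - g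
  have hL' : ∀ m, L' m = N * l m - g m := fun m => by
    change N • l m - g m = _
    rw [smul_eq_mul]
  have hpos : ∀ χ, TangentWeight 𝒜 (infty φ) (μ + k • ω) χ → 0 < L' χ := by
    intro χ hχ
    have h1 := abs_lt.1 (hN _ _ _ hq0 hq hχ)
    rw [hL']
    by_cases h2 : l χ = 0
    · have h3 := K1 _ _ χ χ0 hq0 hq hlq hχ hχ0 h2 hl0
      rw [h2, h3]
      linarith
    · have h3 : 1 ≤ l χ := by
        have := ld_infty_nonneg D hχ
        omega
      nlinarith
  obtain ⟨K, hK0, hK⟩ := H587.exists_bound (S := H587.wts 𝒜) (finite_weights hX) L'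
  have hs' : IsSource 𝒜 L' (infty φ) (μ + k • ω) K := by
    refine ⟨hq0, hq, fun χ hχ => ⟨hpos χ hχ, ?_⟩⟩
    obtain ⟨h1, h2⟩ := H587.tangentWeight_mem hX hq0 hq hχ
    have h3 := hK _ h2 _ h1
    rw [add_sub_cancel_left] at h3
    exact (abs_le.1 h3).2
  obtain ⟨f', n', u', χ', C0⟩ := exists_cdata hX hs'
  have C' : CData 𝒜 L' (μ + k • ω) (infty φ) f1 u' χ' :=
    ⟨C0.dom, C0.noe, ⟨C0.src.gen, C0.src.fix, C0.src.pos, H587.mem_co D.f1mem, (ld_infty_f1 D)⟩,
      C0.fix, D.f1mem, C0.gens, C0.ht⟩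
  obtain ⟨i, hi⟩ := wt_of_tangentWeight hX hq C'.gens C'.ht hχ0
  have hiL : 0 < L' (χ' i) := by
    rw [hi]
    exact hpos χ0 hχ0
  -- the other coordinates
  have hother : ∀ j : {i : Fin n' // 0 < L' (χ' i)}, j ≠ ⟨i, hiL⟩ → 0 < l (χ' j) := by
    rintro ⟨j, hj⟩ hne
    have hne' : j ≠ i := fun h => hne (Subtype.ext h)
    have hj0 : χ' j ≠ 0 := by
      intro h0
      rw [h0, map_zero] at hj
      exact lt_irrefl _ hj
    have hjt := tangentWeight_of_wt hX hq C'.gens C'.ht hj0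
    refine lt_of_le_of_ne (ld_infty_nonneg D hjt) fun h0 => ?_
    have h1 := K1 _ _ _ _ hq0 hq hlq hjt hχ0 h0.symm hl0
    obtain ⟨v, hv, hw, hvu, -⟩ :=
      exists_weight_vector hX (fix_of_isFixed hq) C'.gens C'.ht j
    obtain ⟨v', hv', hw', hvu', -⟩ :=
      exists_weight_vector hX (fix_of_isFixed hq) C'.gens C'.ht i
    rw [h1] at hw hj0
    rw [hi] at hw'
    obtain ⟨c, c', hcc, h2⟩ := K2 _ _ χ0 v v' hq0 hq hlq hl0 hj0 hv hw hv' hw'
    have h3 := h2 (u' j)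
    have h4 := h2 (u' i)
    rw [hvu j, hvu' j, if_pos rfl, if_neg hne'.symm, mul_one, mul_zero, add_zero] at h3
    rw [hvu i, hvu' i, if_pos rfl, if_neg hne', mul_one, mul_zero, zero_add] at h4
    rcases hcc with h | h
    · exact h h3
    · exact h h4
  -- the curve in the chart
  let Kf := FractionRing R
  have hKinj : Function.Injective (algebraMap R Kf) := IsFractionRing.injective R Kf
  have hF : algebraMap R Kf f1 ≠ 0 := by
    intro h
    exact C'.f_ne (hKinj (by rw [h, map_zero]))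
  let y : R →ₐ[ℂ] Polynomial ℂ := evt.comp φ
  have hy : ∀ h, y h = evt (φ h) := fun _ => rfl
  have hyf1 : y f1 = 1 := by
    rw [hy, D.phif1, map_pow, evt_one, one_pow]
  obtain ⟨c1, r, hcr, -⟩ := ld_low_infty D hω (ψ := χ' i) (by rw [hi, hl0]) (C'.gens.hom i)
  have hyzero : ∀ j : {i : Fin n' // 0 < L' (χ' i)}, j ≠ ⟨i, hiL⟩ → y (u' j) = 0 := by
    intro j hj
    rw [hy, ld_zero_infty D (hother j hj).ne' (C'.gens.hom j), map_zero]
  have key : ∀ (d : ℕ) (m : M), l (m - d • μ) = 0 → ∀ h ∈ 𝒜 (d, m), ∃ (c : ℂ) (j : ℕ),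
      y h = Polynomial.C c * (Polynomial.C c1 * Polynomial.X ^ r) ^ j := by
    intro d m hm h hh
    obtain ⟨P, hP, hPh⟩ := C'.exists_hom hF hh
    have hψ : l (m - d • (μ + k • ω)) = 0 := by
      have h1 : m - d • (μ + k • ω) = m - d • μ - (d * k) • ω := by
        rw [smul_add, smul_smul]
        abel
      rw [h1, map_sub, map_nsmul, D.lom, smul_zero, sub_zero, hm]
    obtain ⟨c, j, hc, -⟩ := low_poly (l := l) (L := L') (⟨i, hiL⟩ : {i : Fin n' // 0 < L' (χ' i)})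
      (by rw [hi, hl0]) hother hiL hP hψ
    refine ⟨c, j, ?_⟩
    rw [C'.chart_hom hKinj hF y hyf1 hPh, map_mul, map_pow, MvPolynomial.aeval_X,
      MvPolynomial.aeval_rename, hc, map_mul, map_pow, MvPolynomial.aeval_C,
      MvPolynomial.aeval_X]
    simp only [Option.elim_none, one_pow, one_mul, Function.comp_apply, Option.elim_some]
    rw [hy, hcr]
    rfl
  have hcoef : ∀ (c : ℂ) (j e : ℕ), (Polynomial.X : Polynomial ℂ) ^ e =
      Polynomial.C c * (Polynomial.C c1 * Polynomial.X ^ r) ^ j →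
      r * j = e ∧ c * c1 ^ j = 1 := by
    intro c j e h
    have h1 : Polynomial.C c * (Polynomial.C c1 * Polynomial.X ^ r) ^ j =
        Polynomial.C (c * c1 ^ j) * (Polynomial.X : Polynomial ℂ) ^ (r * j) := by
      rw [mul_pow, ← pow_mul, map_mul, map_pow, mul_assoc]
    rw [h1] at h
    have h2 := congrArg (fun P => Polynomial.coeff P e) h
    simp only [Polynomial.coeff_X_pow_self, Polynomial.coeff_C_mul, Polynomial.coeff_X_pow] at h2
    by_cases h3 : e = r * j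
    · rw [if_pos h3, mul_one] at h2
      exact ⟨h3.symm, h2.symm⟩
    · rw [if_neg h3, mul_zero] at h2
      exact absurd h2 one_ne_zero
  -- `f`
  obtain ⟨c, j, hf⟩ := key 1 μ (by rw [one_smul, sub_self, map_zero]) f C.hf
  have hyf : y f = Polynomial.X ^ k := by rw [hy, D.phif, map_pow, evt_zero]
  rw [hyf] at hf
  obtain ⟨hrj, hcc⟩ := hcoef c j k hf
  have hj0 : j ≠ 0 := by
    rintro rfl
    have := D.kpos
    omega
  have hc1 : c1 ≠ 0 := by
    rintro rfl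
    rw [zero_pow hj0, mul_zero] at hcc
    exact zero_ne_one hcc
  -- the unit
  obtain ⟨d, e, b, hb, hed, hφb⟩ := D.unit
  obtain ⟨c', j', hb'⟩ := key d (d • μ + ω) (by rw [add_sub_cancel_left, D.lom]) b hb
  have hyb : y b = Polynomial.X ^ e := by
    rw [hy, hφb, map_mul, map_pow, evt_zero, evt_one, mul_one]
  rw [hyb] at hb'
  obtain ⟨hrj', -⟩ := hcoef c' j' e hb'
  have hr1 : r ∣ 1 := by
    have h1 : r ∣ e := ⟨j', hrj'.symm⟩
    have h2 : r ∣ e + 1 := by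
      rw [hed, ← hrj]
      exact Dvd.dvd.mul_left (dvd_mul_right _ _) _
    exact (Nat.dvd_add_right h1).1 h2
  have hr : r = 1 := Nat.dvd_one.1 hr1
  refine ⟨L', infty φ, n', u', χ', ⟨i, hiL⟩, c1, C', ?_, hother, hc1, ?_, rfl⟩
  · change l (χ' i) = 0
    rw [hi, hl0]
  · change evt (φ (u' i)) = _
    rw [hcr, hr, pow_one]

end

end Vale.Agent.P280.H127
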