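import Mathlib

/-!
P280, row R2 (captain helper812): the local lemma at a fixed point of a torus.

`R` is a commutative noetherian `ℂ`-algebra graded by a commutative group `Λ`, `q : R → ℂ` an algebra
homomorphism which kills all nonzero weights (a fixed point of the diagonalisable group with character
group `Λ`), `m = ker q`.
-/

open DirectSum

namespace Vale.Agent.P280.H127

variable {R : Type*} [CommRing R] [Algebra ℂ R] {Λ : Type*} [AddCommGroup Λ] [DecidableEq Λ]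
variable (𝒜 : Λ → Submodule ℂ R) [GradedAlgebra 𝒜]

/-- the point `q` is fixed: it kills all nonzero weights -/
def Fix (q : R →ₐ[ℂ] ℂ) : Prop := ∀ w : Λ, w ≠ 0 → ∀ x ∈ 𝒜 w, q x = 0

/-- the maximal ideal of a point -/
def mx (q : R →ₐ[ℂ] ℂ) : Ideal R := RingHom.ker q

theorem mem_mx {q : R →ₐ[ℂ] ℂ} {x : R} : x ∈ mx q ↔ q x = 0 := RingHom.mem_ker

/-- component of weight `w` -/
noncomputable def cp (w : Λ) (x : R) : R := (decompose 𝒜 x w : R)

theorem cp_mem (w : Λ) (x : R) : cp 𝒜 w x ∈ 𝒜 w := (decompose 𝒜 x w).2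

theorem cp_add (w : Λ) (x y : R) : cp 𝒜 w (x + y) = cp 𝒜 w x + cp 𝒜 w y := by
  simp [cp, decompose_add]

theorem cp_sum {ι : Type*} (s : Finset ι) (f : ι → R) (w : Λ) :
    cp 𝒜 w (∑ i ∈ s, f i) = ∑ i ∈ s, cp 𝒜 w (f i) := by
  classical
  induction s using Finset.induction_on with
  | empty => simp [cp]
  | insert a s ha ih => rw [Finset.sum_insert ha, Finset.sum_insert ha, cp_add, ih]

theorem cp_of_mem {w : Λ} {x : R} (h : x ∈ 𝒜 w) : cp 𝒜 w x = x := by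
  simp [cp, decompose_of_mem_same 𝒜 h]

theorem cp_of_mem_ne {w v : Λ} {x : R} (h : x ∈ 𝒜 w) (hv : w ≠ v) : cp 𝒜 v x = 0 := by
  simp [cp, decompose_of_mem_ne 𝒜 h hv]

/-- component of a product with a homogeneous right factor -/
theorem cp_mul_right {v : Λ} {y : R} (hy : y ∈ 𝒜 v) (x : R) (w : Λ) :
    cp 𝒜 w (x * y) = cp 𝒜 (w - v) x * y := by
  have h := DirectSum.coe_decompose_mul_add_of_right_mem 𝒜 (a := x) (i := w - v) hy
  rw [sub_add_cancel] at h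
  exact h

/-- component of a product with a homogeneous left factor -/
theorem cp_mul_left {v : Λ} {y : R} (hy : y ∈ 𝒜 v) (x : R) (w : Λ) :
    cp 𝒜 w (y * x) = y * cp 𝒜 (w - v) x := by
  rw [mul_comm, cp_mul_right 𝒜 hy, mul_comm]

/-- induction over homogeneous components -/
theorem hom_ind {P : R → Prop} (h0 : P 0) (hadd : ∀ x y, P x → P y → P (x + y))
    (hh : ∀ w, ∀ x ∈ 𝒜 w, P x) (x : R) : P x := by
  classical
  rw [← DirectSum.sum_support_decompose 𝒜 x]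
  exact Finset.sum_induction _ P hadd h0 fun w _ => hh w _ (cp_mem 𝒜 w x)

variable {𝒜}

theorem Fix.q_cp {q : R →ₐ[ℂ] ℂ} (hq : Fix 𝒜 q) (x : R) : q (cp 𝒜 0 x) = q x := by
  refine hom_ind 𝒜 (P := fun x => q (cp 𝒜 0 x) = q x) ?_ ?_ ?_ x
  · simp [cp]
  · intro x y hx hy
    rw [cp_add, map_add, map_add, hx, hy]
  · intro w x hx
    rcases eq_or_ne w 0 with rfl | hw
    · rw [cp_of_mem 𝒜 hx]
    · rw [cp_of_mem_ne 𝒜 hx hw, map_zero, hq w hw x hx]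

theorem Fix.cp_mem_mx {q : R →ₐ[ℂ] ℂ} (hq : Fix 𝒜 q) {x : R} (hx : x ∈ mx q) (w : Λ) :
    cp 𝒜 w x ∈ mx q := by
  rw [mem_mx] at hx ⊢
  rcases eq_or_ne w 0 with rfl | hw
  · rw [hq.q_cp, hx]
  · exact hq w hw _ (cp_mem 𝒜 w x)

/-- homogeneous coefficients -/
theorem mem_span_hom {n : ℕ} {u : Fin n → R} {wt : Fin n → Λ} (hu : ∀ i, u i ∈ 𝒜 (wt i)) {x : R}
    (hx : x ∈ Ideal.span (Set.range u)) {w : Λ} (hw : x ∈ 𝒜 w) :
    ∃ r : Fin n → R, (∀ i, r i ∈ 𝒜 (w - wt i)) ∧ x = ∑ i, r i * u i := by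
  rw [Ideal.mem_span_range_iff_exists_fun] at hx
  obtain ⟨c, hc⟩ := hx
  refine ⟨fun i => cp 𝒜 (w - wt i) (c i), fun i => cp_mem 𝒜 _ _, ?_⟩
  rw [← cp_of_mem 𝒜 hw, ← hc, cp_sum]
  exact Finset.sum_congr rfl fun i _ => cp_mul_right 𝒜 (hu i) _ _

/-- a homogeneous ideal contains the components of its elements -/
theorem cp_mem_span {n : ℕ} {u : Fin n → R} {wt : Fin n → Λ} (hu : ∀ i, u i ∈ 𝒜 (wt i)) {x : R}
    (hx : x ∈ Ideal.span (Set.range u)) (w : Λ) : cp 𝒜 w x ∈ Ideal.span (Set.range u) := by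
  rw [Ideal.mem_span_range_iff_exists_fun] at hx ⊢
  obtain ⟨c, hc⟩ := hx
  refine ⟨fun i => cp 𝒜 (w - wt i) (c i), ?_⟩
  rw [← hc, cp_sum]
  exact Finset.sum_congr rfl fun i _ => (cp_mul_right 𝒜 (hu i) _ _).symm

/-- local homogeneous generators of the maximal ideal of a fixed point -/
structure Gens (𝒜 : Λ → Submodule ℂ R) [GradedAlgebra 𝒜] (q : R →ₐ[ℂ] ℂ) {n : ℕ}
    (u : Fin n → R) (wt : Fin n → Λ) : Prop where
  hom : ∀ i, u i ∈ 𝒜 (wt i)
  zero : ∀ i, q (u i) = 0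
  gen : ∃ s ∈ 𝒜 0, q s = 1 ∧ ∀ x ∈ mx q, s * x ∈ Ideal.span (Set.range u)

/-- from one denominator to a homogeneous one -/
theorem Gens.of_den {q : R →ₐ[ℂ] ℂ} (hq : Fix 𝒜 q) {n : ℕ} {u : Fin n → R} {wt : Fin n → Λ}
    (hom : ∀ i, u i ∈ 𝒜 (wt i)) (zero : ∀ i, q (u i) = 0) {s : R} (hs : q s ≠ 0)
    (h : ∀ x ∈ mx q, s * x ∈ Ideal.span (Set.range u)) : Gens 𝒜 q u wt := by
  have key : ∀ x ∈ mx q, cp 𝒜 0 s * x ∈ Ideal.span (Set.range u) := by
    intro x hx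
    have h1 : ∀ w : Λ, cp 𝒜 0 s * cp 𝒜 w x ∈ Ideal.span (Set.range u) := by
      intro w
      have h2 := cp_mem_span hom (h _ (hq.cp_mem_mx hx w)) w
      rwa [cp_mul_right 𝒜 (cp_mem 𝒜 w x), sub_self] at h2
    classical
    rw [← DirectSum.sum_support_decompose 𝒜 x, Finset.mul_sum]
    exact Ideal.sum_mem _ fun w _ => h1 w
  refine ⟨hom, zero, (q s)⁻¹ • cp 𝒜 0 s, Submodule.smul_mem _ _ (cp_mem 𝒜 0 s), ?_, fun x hx => ?_⟩
  · rw [map_smul, hq.q_cp, smul_eq_mul, inv_mul_cancel₀ hs]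
  · rw [smul_mul_assoc, Algebra.smul_def]
    exact Ideal.mul_mem_left _ _ (key x hx)

/-- generators modulo the square of the maximal ideal -/
theorem Gens.of_cotangent [IsNoetherianRing R] {q : R →ₐ[ℂ] ℂ} (hq : Fix 𝒜 q) {n : ℕ}
    {u : Fin n → R} {wt : Fin n → Λ} (hom : ∀ i, u i ∈ 𝒜 (wt i)) (zero : ∀ i, q (u i) = 0)
    (h : mx q ≤ Ideal.span (Set.range u) ⊔ mx q ^ 2) : Gens 𝒜 q u wt := by
  obtain ⟨r, hr, hr'⟩ := Submodule.exists_sub_one_mem_and_smul_le_of_fg_of_le_sup (I := mx q)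
    (N := Ideal.span (Set.range u)) (N' := mx q) (P := mx q) (IsNoetherian.noetherian _) le_rfl
    (by rw [smul_eq_mul, ← pow_two]; exact h)
  have h1 : q r = 1 := by
    rw [mem_mx, map_sub, map_one] at hr
    exact sub_eq_zero.mp hr
  refine Gens.of_den hq hom zero (s := r) (by rw [h1]; exact one_ne_zero) fun x hx => ?_
  exact hr' (Submodule.smul_mem_pointwise_smul x r _ hx)

/-- an element outside the maximal ideal is invertible modulo its powers -/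
theorem mem_of_mul_mem {q : R →ₐ[ℂ] ℂ} {s b : R} (hs : q s = 1) {K : Ideal R} {k : ℕ}
    (h : s * b ∈ K ⊔ mx q ^ k) : b ∈ K ⊔ mx q ^ k := by
  have h1 : 1 - s ∈ mx q := by rw [mem_mx, map_sub, map_one, hs, sub_self]
  have h2 : ∀ j : ℕ, ∃ t : R, 1 - t * s ∈ mx q ^ j := by
    intro j
    refine ⟨∑ i ∈ Finset.range j, (1 - s) ^ i, ?_⟩
    have e := geom_sum_mul_neg (1 - s) j
    rw [sub_sub_cancel] at e
    rw [e, sub_sub_cancel]
    exact Ideal.pow_mem_pow h1 j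
  obtain ⟨t, ht⟩ := h2 k
  have e : b = t * (s * b) + (1 - t * s) * b := by ring
  rw [e]
  exact Ideal.add_mem _ (Ideal.mul_mem_left _ _ h)
    (Ideal.mem_sup_right (Ideal.mul_mem_right _ _ ht))

/-- **Lemma A**, filtration form -/
theorem lemmaA_aux {q : R →ₐ[ℂ] ℂ} (hq : Fix 𝒜 q) {n : ℕ} {u : Fin n → R} {wt : Fin n → Λ}
    (G : Gens 𝒜 q u wt) {C : Set Λ} {J : Set (Fin n)}
    (hC : ∀ w ∈ C, ∀ i ∉ J, w - wt i ∈ C ∧ w - wt i ≠ 0) (k : ℕ) :
    ∀ w ∈ C, ∀ b ∈ 𝒜 w, b ∈ mx q → b ∈ Ideal.span (u '' J) ⊔ mx q ^ (k + 1) := by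
  obtain ⟨s, hs0, hs1, hs⟩ := G.gen
  induction k with
  | zero =>
    intro w _ b _ hb
    rw [zero_add, pow_one]
    exact Ideal.mem_sup_right hb
  | succ k ih =>
    intro w hw b hb hbm
    refine mem_of_mul_mem hs1 ?_
    have h1 : s * b ∈ 𝒜 w := by
      have := SetLike.mul_mem_graded hs0 hb
      rwa [zero_add] at this
    obtain ⟨r, hr, e⟩ := mem_span_hom G.hom (hs b hbm) h1
    rw [e]
    refine Ideal.sum_mem _ fun i _ => ?_
    by_cases hi : i ∈ J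
    · exact Ideal.mem_sup_left (Ideal.mul_mem_left _ _ (Ideal.subset_span ⟨i, hi, rfl⟩))
    · obtain ⟨h2, h3⟩ := hC w hw i hi
      have h4 : r i ∈ mx q := mem_mx.mpr (hq _ h3 _ (hr i))
      have h5 := ih _ h2 (r i) (hr i) h4
      obtain ⟨x, hx, y, hy, hxy⟩ := Submodule.mem_sup.mp h5
      rw [← hxy, add_mul]
      refine Ideal.add_mem _ (Ideal.mem_sup_left (Ideal.mul_mem_right _ _ hx))
        (Ideal.mem_sup_right ?_)
      rw [pow_succ _ (k + 1)]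
      exact Ideal.mul_mem_mul hy (mem_mx.mpr (G.zero i))

/-- **Lemma A** : elements whose weight lies in `C` are locally in the ideal generated by the
`u i`, `i ∈ J` -/
theorem lemmaA [IsNoetherianRing R] {q : R →ₐ[ℂ] ℂ} (hq : Fix 𝒜 q) {n : ℕ} {u : Fin n → R}
    {wt : Fin n → Λ} (G : Gens 𝒜 q u wt) {C : Set Λ} {J : Set (Fin n)}
    (hC : ∀ w ∈ C, ∀ i ∉ J, w - wt i ∈ C ∧ w - wt i ≠ 0) {w : Λ} (hw : w ∈ C) {b : R}
    (hb : b ∈ 𝒜 w) (hbm : b ∈ mx q) : ∃ t, q t = 1 ∧ t * b ∈ Ideal.span (u '' J) := by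
  set K := Ideal.span (u '' J) with hK
  have h1 : Submodule.Quotient.mk b ∈ (⨅ i : ℕ, mx q ^ i • ⊤ : Submodule R (R ⧸ K)) := by
    rw [Submodule.mem_iInf]
    intro i
    have h2 : b ∈ K ⊔ mx q ^ i := by
      cases i with
      | zero => rw [pow_zero, Ideal.one_eq_top, sup_top_eq]; trivial
      | succ k => exact lemmaA_aux hq G hC k w hw b hb hbm
    obtain ⟨x, hx, y, hy, hxy⟩ := Submodule.mem_sup.mp h2
    have e : (Submodule.Quotient.mk b : R ⧸ K) = y • (Submodule.Quotient.mk 1 : R ⧸ K) := by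
      rw [← Submodule.Quotient.mk_smul, Submodule.Quotient.eq, smul_eq_mul, mul_one, ← hxy,
        add_sub_cancel_right]
      exact hx
    rw [e]
    exact Submodule.smul_mem_smul hy trivial
  rw [Ideal.mem_iInf_smul_pow_eq_bot_iff] at h1
  obtain ⟨⟨r, hr⟩, h2⟩ := h1
  refine ⟨1 - r, by rw [map_sub, map_one, mem_mx.mp hr, sub_zero], ?_⟩
  rw [← Submodule.Quotient.mk_smul, Submodule.Quotient.eq] at h2
  have e : (1 - r) * b = -(r • b - b) := by rw [smul_eq_mul]; ring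
  rw [e]
  exact K.neg_mem h2

/-- **source** : if no `w ∈ C` can be reached, there are no elements of weight in `C` -/
theorem source [IsNoetherianRing R] [IsDomain R] {q : R →ₐ[ℂ] ℂ} (hq : Fix 𝒜 q) {n : ℕ}
    {u : Fin n → R} {wt : Fin n → Λ} (G : Gens 𝒜 q u wt) {C : Set Λ} (h0 : (0 : Λ) ∉ C)
    (hC : ∀ w ∈ C, ∀ i, w - wt i ∈ C) {w : Λ} (hw : w ∈ C) : 𝒜 w = ⊥ := by
  rw [eq_bot_iff]
  intro b hb
  have hne : w ≠ 0 := fun h => h0 (h ▸ hw)
  obtain ⟨t, ht, h⟩ := lemmaA hq G (J := ∅) (fun w hw i _ => ⟨hC w hw i, fun h => h0 (h ▸ hC w hw i)⟩)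
    hw hb (mem_mx.mpr (hq w hne b hb))
  rw [Set.image_empty, Ideal.span_empty, Ideal.mem_bot] at h
  rcases mul_eq_zero.mp h with h | h
  · rw [h, map_zero] at ht
    exact absurd ht zero_ne_one
  · exact h

end Vale.Agent.P280.H127
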