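import Vale.Agent.P280.H127.Inc2
import Vale.Agent.P280.H644.ThmI
import Vale.Agent.P280.H587.Ext
import Vale.Agent.P280.T.Tools2

/-!
P280, Theorem I': all the weights at all the fixed points lie between `-a` and `a`.
-/

open DirectSum Vale.Agent.P280.T Vale.Agent.P280.H644

namespace Vale.Agent.P280.H127

variable {R : Type} [CommRing R] [Algebra ℂ R] {𝒜 : ℕ × ℤ → Submodule ℂ R} [GradedAlgebra 𝒜]

/-- Lower limit of a point `z` of the cone (not the vertex): its lowest slope `ν'`, the limit is a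
fixed non-vertex. -/
theorem exists_lower (hX : IsTorusManifold 𝒜) {z : R →ₐ[ℂ] ℂ} (hz : ¬ IsVertex 𝒜 z) :
    ∃ (ν' : ℤ) (hα : Supp 𝒜 z (rel ν')), (∃ h ∈ 𝒜 (1, ν'), z h ≠ 0) ∧
      ¬ IsVertex 𝒜 (lim 𝒜 hα) ∧ IsFixed 𝒜 (lim 𝒜 hα) ν' := by
  have hex1 := (not_isVertex_iff hX.gen z).mp hz
  obtain ⟨b, hb⟩ := (finite_weights hX).bddBelow
  obtain ⟨ν', ⟨h1, hh1, hzh1⟩, hmin⟩ := Int.exists_least_of_bdd
    (P := fun m => ∃ h ∈ 𝒜 (1, m), z h ≠ 0)
    ⟨b, fun m ⟨h, hh, hne⟩ => hb ⟨h, hh, fun h0 => hne (by rw [h0, map_zero])⟩⟩ hex1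
  have hα : Supp 𝒜 z (rel ν') := by
    intro i h hh hne
    have := slope_le (𝒜 := 𝒜) hX.gen (AddMonoidHom.id ℤ) ν' (RingHom.ker z)
      (fun m h hh hne => hmin m ⟨h, hh, fun h0 => hne h0⟩) i.1 i.2 h hh (fun h0 => hne h0)
    rw [AddMonoidHom.id_apply, nsmul_eq_mul] at this
    rw [slope_apply]
    simp only [AddMonoidHom.coe_fst, AddMonoidHom.coe_snd]
    linarith
  refine ⟨ν', hα, ⟨h1, hh1, hzh1⟩, ?_, ?_⟩
  · intro hv
    have := hv 1 ν' one_pos h1 hh1
    rw [lim_mem 𝒜 hα hh1, if_pos (by simp)] at this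
    exact hzh1 this
  · intro d m h hh hne
    rw [lim_mem 𝒜 hα hh] at hne
    by_cases hi : rel ν' (d, m) = 0
    · rw [slope_apply] at hi
      simp only [AddMonoidHom.coe_fst, AddMonoidHom.coe_snd] at hi
      rw [nsmul_eq_mul]
      linarith
    · rw [if_neg hi] at hne
      exact absurd rfl hne

/-- **Theorem I'** : if all the weights at all the fixed points are at most `a` then they are at
least `-a`. -/
theorem neg_le_of_le (hX : IsTorusManifold 𝒜) {a : ℤ} (ha : 0 < a)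
    (hle : ∀ (y : R →ₐ[ℂ] ℂ) (ν : ℤ), ¬ IsVertex 𝒜 y → IsFixed 𝒜 y ν →
      ∀ χ, TangentWeight 𝒜 y ν χ → χ ≤ a)
    {x : R →ₐ[ℂ] ℂ} {ν : ℤ} (hx : ¬ IsVertex 𝒜 x) (hx' : IsFixed 𝒜 x ν) {χ : ℤ}
    (hχ : TangentWeight 𝒜 x ν χ) : -a ≤ χ := by
  have := noeth hX
  have := hX.finiteType
  by_contra hcon
  push Not at hcon
  obtain ⟨n, u, wt, G, hn⟩ := exists_params_T hX hx (fix_of_isFixed hx')
  obtain ⟨i, hi⟩ := wt_of_tangentWeight hX hx' G hn hχ
  obtain ⟨z, hzx, hz0, hzC⟩ := incoming_C (fix_of_isFixed hx') G hn.le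
    (C := {w : ℤ | 0 < w ∨ ¬ χ ∣ w}) (by simp) (by
      intro w hw j hj hj0
      simp only [Set.mem_ofPred_eq, not_or, not_lt, not_not] at hw hj ⊢
      obtain ⟨hj1, hj2⟩ := hj
      rcases hw with (hw | hw) | hw
      · left
        omega
      · right
        intro hd
        apply hw
        have := dvd_add hd hj2
        simpa using this
      · left
        subst hw
        omega) ⟨i, by
      simp only [Set.mem_ofPred_eq, not_or, not_lt, not_not]
      exact ⟨by omega, hi ▸ dvd_rfl⟩, by omega⟩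
  have e0 : ∀ (d : ℕ) (m : ℤ), ∀ h ∈ 𝒜 (d, m), m = d • ν → z h = x h := by
    intro d m h hh hm
    refine hz0 h (mem_coarse hh ?_)
    rw [rl_apply, AddMonoidHom.id_apply, hm, sub_self]
  have eC : ∀ (d : ℕ) (m : ℤ), ∀ h ∈ 𝒜 (d, m), z h ≠ 0 → m ≤ d • ν ∧ χ ∣ m - d • ν := by
    intro d m h hh hne
    by_contra hc
    apply hne
    refine hzC (m - d • ν) ?_ h (mem_coarse hh (rl_apply _ _ d m))
    simp only [Set.mem_ofPred_eq]
    by_contra hc2
    push Not at hc2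
    exact hc ⟨by linarith [hc2.1], hc2.2⟩
  have hzv : ¬ IsVertex 𝒜 z := by
    intro hzv
    obtain ⟨d, m, hd, h, hh, hne'⟩ := exists_of_not_vertex hx
    have h1 := e0 d m h hh (hx' d m h hh hne')
    rw [hzv d m hd h hh] at h1
    exact hne' h1.symm
  obtain ⟨ν', hα, ⟨h1, hh1, hzh1⟩, hy, hy'⟩ := exists_lower hX hzv
  have hdν : χ ∣ ν' - ν := by
    have := (eC 1 ν' h1 hh1 hzh1).2
    simpa using this
  -- the derivation of weights along `z`
  set c : R →ₗ[ℂ] ℂ := tw 𝒜 fun i => ((rel ν' i : ℤ) : ℂ) • z.toLinearMap with hc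
  have hcm : ∀ i, ∀ h ∈ 𝒜 i, c h = ((rel ν' i : ℤ) : ℂ) * z h := by
    intro i h hh
    rw [hc, tw_mem 𝒜 _ hh, LinearMap.smul_apply, AlgHom.toLinearMap_apply, smul_eq_mul]
  have hder : IsDer z c := by
    refine isDer_of_hom (𝒜 := 𝒜) fun i j f hf g hg => ?_
    rw [hcm i f hf, hcm j g hg, hcm _ _ (SetLike.mul_mem_graded hf hg), map_add, map_mul]
    push_cast
    ring
  have hlow : ∀ i, ∀ h ∈ 𝒜 i, c h ≠ 0 → -χ ≤ rel ν' i := by
    intro i h hh hne
    rw [hcm i h hh] at hne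
    have hz1 : z h ≠ 0 := right_ne_zero_of_mul hne
    have hr0 : rel ν' i ≠ 0 := by
      intro h0
      rw [h0] at hne
      simp at hne
    have hpos := hα i h hh hz1
    have hdiv : χ ∣ rel ν' i := by
      have h2 := (eC i.1 i.2 h hh hz1).2
      have h3 : rel ν' i = (i.2 - i.1 • ν) - (i.1 : ℤ) * (ν' - ν) := by
        rw [slope_apply]
        simp only [AddMonoidHom.coe_fst, AddMonoidHom.coe_snd, nsmul_eq_mul]
        ring
      rw [h3]
      exact dvd_sub h2 (Dvd.dvd.mul_left hdν _)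
    exact Int.le_of_dvd (lt_of_le_of_ne hpos (Ne.symm hr0)) (Int.neg_dvd.mpr hdiv)
  have hc0 : c = 0 := eq_zero_of_lead 𝒜 hα (a := a) (w := -χ)
    (fun w hw v hv hvw => LE_of_tangentWeight ha hy' (hle _ _ hy hy') w hw v hv
      (hasWt_iff.1 hvw)) hder (by omega) hlow
  have hzz : ∀ i, ∀ h ∈ 𝒜 i, z h ≠ 0 → rel ν' i = 0 := by
    intro i h hh hne
    have := hcm i h hh
    rw [hc0, LinearMap.zero_apply] at this
    rcases mul_eq_zero.mp this.symm with h2 | h2
    · exact_mod_cast h2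
    · exact absurd h2 hne
  have hνν : ν' = ν := by
    obtain ⟨d, m, hd, h, hh, hne'⟩ := exists_of_not_vertex hx
    have hm := hx' d m h hh hne'
    have h2 := hzz (d, m) h hh (by rw [e0 d m h hh hm]; exact hne')
    rw [slope_apply] at h2
    simp only [AddMonoidHom.coe_fst, AddMonoidHom.coe_snd] at h2
    rw [hm, nsmul_eq_mul] at h2
    have h3 : (d : ℤ) * (ν - ν') = 0 := by linarith
    rcases mul_eq_zero.mp h3 with h4 | h4
    · exact absurd (by exact_mod_cast h4) hd.ne'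
    · linarith
  apply hzx
  refine algHom_ext_hom 𝒜 fun i h hh => ?_
  obtain ⟨d, m⟩ := i
  by_cases hm : m = d • ν
  · exact e0 d m h hh hm
  · have h2 : z h = 0 := by
      by_contra hne
      apply hm
      have := hzz (d, m) h hh hne
      rw [slope_apply, hνν] at this
      simp only [AddMonoidHom.coe_fst, AddMonoidHom.coe_snd] at this
      rw [nsmul_eq_mul]
      linarith
    have h3 : x h = 0 := by
      by_contra hne
      exact hm (hx' d m h hh hne)
    rw [h2, h3]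

/-- **Theorem I'** for one-parameter groups `l` of a torus: with an isolated source all of whose
weights are at most `a`, all the weights `χ` at all the fixed points satisfy `-a ≤ l χ ≤ a`. -/
theorem weight_bounds (hI : H587.TheoremI) {M : Type} [AddCommGroup M] [DecidableEq M] {R : Type}
    [CommRing R] [Algebra ℂ R] {𝒜 : ℕ × M → Submodule ℂ R} [GradedAlgebra 𝒜]
    (hX : IsTorusManifold 𝒜) (hN : NefOnRationalCurves 𝒜) {l : M →+ ℤ} {p : R →ₐ[ℂ] ℂ} {μ : M}
    {a : ℤ} (hs : IsSource 𝒜 l p μ a) (ha : 0 < a) {x : R →ₐ[ℂ] ℂ} {ν : M}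
    (hx : ¬ IsVertex 𝒜 x) (hx' : IsFixed 𝒜 x ν) {χ : M} (hχ : TangentWeight 𝒜 x ν χ) :
    -a ≤ l χ ∧ l χ ≤ a := by
  refine ⟨?_, H587.weight_le hI hX hN hs ha hx hx' hχ⟩
  by_cases h0 : l χ = 0
  · rw [h0]
    omega
  · obtain ⟨v, hv, hw, hc⟩ := hχ
    have hX' := H587.isTorusManifold_co (l := l) hX
    have hv' : ¬ IsVertex (H587.co 𝒜 l) x := fun h => hx (H587.isVertex_co.1 h)
    refine neg_le_of_le hX' ha (fun y ν' hy hy' ψ hψ =>
      (hI R (H587.co 𝒜 l) hX' (H587.nef_co hN) p (l μ) a ha (H587.isSource_co hs) y ν' hy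
        hy').1 ψ hψ) hv' (H587.isFixed_co hx') (χ := l χ) ?_
    obtain ⟨d, m, h, hh, hne⟩ := hc 0
    rw [zero_mul, zero_mul] at hne
    exact H587.tangentWeight_of_ne (H587.isFixed_co hx') h0 hv (H587.hasWeight_co hw) d (l m)
      (H587.mem_co hh) hne

end Vale.Agent.P280.H127
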