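import Vale.Agent.P280.H127.Local

/-!
P280, row R2: homogeneous parameters at a regular fixed point, dual tangent vectors, incoming points.
-/

open DirectSum IsLocalRing

namespace Vale.Agent.P280.H127

variable {R : Type*} [CommRing R] [Algebra ℂ R] {Λ : Type*} [AddCommGroup Λ] [DecidableEq Λ]
variable {𝒜 : Λ → Submodule ℂ R} [GradedAlgebra 𝒜]

instance mx_prime (q : R →ₐ[ℂ] ℂ) : (mx q).IsPrime := RingHom.ker_isPrime _

instance mx_maximal (q : R →ₐ[ℂ] ℂ) : (mx q).IsMaximal :=
  RingHom.ker_isMaximal_of_surjective _ fun c => ⟨algebraMap ℂ R c, by simp⟩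

/-- the maximal ideal of a fixed point is generated by homogeneous elements -/
theorem Fix.mem_span {q : R →ₐ[ℂ] ℂ} (hq : Fix 𝒜 q) {x : R} (hx : x ∈ mx q) :
    x ∈ Ideal.span {y | (∃ w, y ∈ 𝒜 w) ∧ y ∈ mx q} := by
  classical
  rw [← DirectSum.sum_support_decompose 𝒜 x]
  exact Ideal.sum_mem _ fun w _ =>
    Ideal.subset_span ⟨⟨w, cp_mem 𝒜 w x⟩, hq.cp_mem_mx hx w⟩

/-- descent of an inclusion of ideals from the local ring -/
theorem exists_den [IsNoetherianRing R] {q : R →ₐ[ℂ] ℂ} {K : Ideal R}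
    (h : Ideal.map (algebraMap R (Localization.AtPrime (mx q))) (mx q) ≤
      Ideal.map (algebraMap R (Localization.AtPrime (mx q))) K) :
    ∃ s, q s ≠ 0 ∧ ∀ x ∈ mx q, s * x ∈ K := by
  classical
  obtain ⟨F, hF⟩ : (mx q).FG := IsNoetherian.noetherian _
  have h1 : ∀ x ∈ mx q, ∃ s : R, q s ≠ 0 ∧ s * x ∈ K := by
    intro x hx
    have h2 := h (Ideal.mem_map_of_mem _ hx)
    obtain ⟨s, hs, h3⟩ := (IsLocalization.algebraMap_mem_map_algebraMap_iff (mx q).primeCompl
      (Localization.AtPrime (mx q)) K x).mp h2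
    exact ⟨s, fun h4 => hs (mem_mx.mpr h4), h3⟩
  choose! s hs hsK using h1
  refine ⟨∏ x ∈ F, s x, ?_, fun x hx => ?_⟩
  · rw [map_prod, Finset.prod_ne_zero_iff]
    exact fun x hx => hs x (hF ▸ Ideal.subset_span hx)
  · rw [← hF] at hx
    refine Submodule.span_induction (p := fun x _ => (∏ x ∈ F, s x) * x ∈ K) ?_ ?_ ?_ ?_ hx
    · intro x hx
      rw [← Finset.prod_erase_mul _ _ hx, mul_assoc]
      exact Ideal.mul_mem_left _ _ (hsK x (hF ▸ Ideal.subset_span hx))
    · rw [mul_zero]; exact K.zero_mem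
    · intro x y _ _ hx hy
      rw [mul_add]; exact K.add_mem hx hy
    · intro a x _ hx
      rw [smul_eq_mul, mul_left_comm]; exact K.mul_mem_left _ hx

/-- **homogeneous parameters** at a fixed point: as many as the dimension of the cotangent space -/
theorem exists_gens [IsNoetherianRing R] {q : R →ₐ[ℂ] ℂ} (hq : Fix 𝒜 q) :
    ∃ (u : Fin (Module.finrank (ResidueField (Localization.AtPrime (mx q)))
        (CotangentSpace (Localization.AtPrime (mx q)))) → R)
      (wt : Fin (Module.finrank (ResidueField (Localization.AtPrime (mx q)))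
        (CotangentSpace (Localization.AtPrime (mx q)))) → Λ), Gens 𝒜 q u wt := by
  classical
  set O := Localization.AtPrime (mx q) with hO
  set V := CotangentSpace O
  have hmap : Ideal.map (algebraMap R O) (mx q) = maximalIdeal O :=
    Localization.AtPrime.map_eq_maximalIdeal
  -- homogeneous elements in the maximal ideal of the local ring
  set T : Set (maximalIdeal O) := {y | ∃ x : R, ((∃ w, x ∈ 𝒜 w) ∧ x ∈ mx q) ∧ y.1 = algebraMap R O x}
    with hT
  have hTtop : Submodule.span O T = ⊤ := by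
    refine (Submodule.map_injective_of_injective (Submodule.injective_subtype _)) ?_
    rw [Submodule.map_top, Submodule.range_subtype, Submodule.map_span]
    refine le_antisymm (Submodule.span_le.mpr ?_) ?_
    · rintro _ ⟨y, -, rfl⟩
      exact y.2
    · refine hmap.symm.le.trans (Ideal.map_le_iff_le_comap.mpr ?_)
      intro x hx
      have h1 := hq.mem_span hx
      refine Submodule.span_induction (p := fun x _ => x ∈ Ideal.comap (algebraMap R O)
        (Submodule.span O ((maximalIdeal O).subtype '' T))) ?_ (Ideal.zero_mem _)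
        (fun x y _ _ h1 h2 => Ideal.add_mem _ h1 h2) (fun a x _ h => Ideal.mul_mem_left _ a h) h1
      rintro y ⟨⟨w, hw⟩, hy⟩
      rw [Ideal.mem_comap]
      exact Submodule.subset_span ⟨⟨algebraMap R O y, hmap ▸ Ideal.mem_map_of_mem _ hy⟩,
        ⟨y, ⟨⟨w, hw⟩, hy⟩, rfl⟩, rfl⟩
  have hspan : Submodule.span (ResidueField O) ((maximalIdeal O).toCotangent '' T) = ⊤ :=
    CotangentSpace.span_image_eq_top_iff.mpr hTtop
  obtain ⟨b, hbT, hbspan, hbli⟩ := exists_linearIndependent (ResidueField O)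
    ((maximalIdeal O).toCotangent '' T)
  rw [hspan] at hbspan
  have B : Module.Basis b (ResidueField O) V :=
    Module.Basis.mk hbli (by rw [Subtype.range_coe, hbspan])
  have : Fintype b := FiniteDimensional.fintypeBasisIndex B
  have hcard : Fintype.card b = Module.finrank (ResidueField O) V :=
    (Module.finrank_eq_card_basis B).symm
  have e : Fin (Module.finrank (ResidueField O) V) ≃ b := (finCongr hcard.symm).trans
    (Fintype.equivFin b).symm
  have hch : ∀ i, ∃ (y : maximalIdeal O) (x : R) (w : Λ), x ∈ 𝒜 w ∧ x ∈ mx q ∧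
      y.1 = algebraMap R O x ∧ (maximalIdeal O).toCotangent y = (e i : V) := by
    intro i
    obtain ⟨y, ⟨x, ⟨⟨w, hw⟩, hx⟩, hxy⟩, hy⟩ := hbT (e i).2
    exact ⟨y, x, w, hw, hx, hxy, hy⟩
  choose y u wt hu hum hyu hye using hch
  refine ⟨u, wt, ?_⟩
  have hspan2 : Submodule.span O (Set.range y) = ⊤ := by
    rw [← CotangentSpace.span_image_eq_top_iff, ← hbspan]
    congr 1
    ext v
    constructor
    · rintro ⟨_, ⟨i, rfl⟩, rfl⟩
      rw [hye]; exact (e i).2
    · intro hv
      refine ⟨y (e.symm ⟨v, hv⟩), ⟨_, rfl⟩, ?_⟩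
      rw [hye, e.apply_symm_apply]
  have hle : Ideal.map (algebraMap R O) (mx q) ≤
      Ideal.map (algebraMap R O) (Ideal.span (Set.range u)) := by
    rw [hmap]
    intro z hz
    have h1 : (⟨z, hz⟩ : maximalIdeal O) ∈ Submodule.span O (Set.range y) := by
      rw [hspan2]; trivial
    refine Submodule.span_induction (p := fun (z : maximalIdeal O) _ => (z : O) ∈
      Ideal.map (algebraMap R O) (Ideal.span (Set.range u))) ?_ (Ideal.zero_mem _)
      (fun x y _ _ h1 h2 => Ideal.add_mem _ h1 h2) (fun a x _ h => Ideal.mul_mem_left _ a h) h1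
    rintro _ ⟨i, rfl⟩
    rw [hyu]
    exact Ideal.mem_map_of_mem _ (Ideal.subset_span ⟨i, rfl⟩)
  obtain ⟨s, hs, hs'⟩ := exists_den hle
  exact Gens.of_den hq hu (fun i => mem_mx.mp (hum i)) hs hs'

/-- at a regular point the number of parameters is the height of the maximal ideal -/
theorem finrank_eq_height [IsNoetherianRing R] {q : R →ₐ[ℂ] ℂ}
    (hr : IsRegularLocalRing (Localization.AtPrime (mx q))) :
    ((Module.finrank (ResidueField (Localization.AtPrime (mx q)))
        (CotangentSpace (Localization.AtPrime (mx q))) : ℕ) : ℕ∞) = (mx q).height := by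
  have h1 := (IsRegularLocalRing.iff_finrank_cotangentSpace
    (R := Localization.AtPrime (mx q))).mp hr
  rw [IsLocalization.AtPrime.ringKrullDim_eq_height (mx q)] at h1
  exact_mod_cast h1

/-- **homogeneous parameters at a regular fixed point** -/
theorem exists_params [IsNoetherianRing R] {q : R →ₐ[ℂ] ℂ} (hq : Fix 𝒜 q)
    (hr : IsRegularLocalRing (Localization.AtPrime (mx q))) :
    ∃ (n : ℕ) (u : Fin n → R) (wt : Fin n → Λ), Gens 𝒜 q u wt ∧ (n : ℕ∞) = (mx q).height := by
  obtain ⟨u, wt, G⟩ := exists_gens hq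
  exact ⟨_, u, wt, G, finrank_eq_height hr⟩

/-- fewer parameters than the height do not generate, even locally up to radical -/
theorem exists_point [IsNoetherianRing R] {q : R →ₐ[ℂ] ℂ} {s : Finset R} {J : Ideal R}
    (hcard : (s.card : ℕ∞) < (mx q).height) (hs : Ideal.span (s : Set R) ≤ mx q)
    (hloc : ∀ b ∈ J, ∃ t, q t ≠ 0 ∧ t * b ∈ Ideal.span (s : Set R)) :
    ∃ P : Ideal R, P.IsPrime ∧ J ≤ P ∧ P ≤ mx q ∧ P ≠ mx q := by
  by_contra hcon
  push Not at hcon
  have h1 : mx q ∈ (Ideal.span (s : Set R)).minimalPrimes := by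
    refine ⟨⟨inferInstance, hs⟩, ?_⟩
    rintro P ⟨hP, hsP⟩ hPq
    have h2 : J ≤ P := by
      intro b hb
      obtain ⟨t, ht, h⟩ := hloc b hb
      rcases hP.mem_or_mem (hsP h) with h3 | h3
      · exact absurd (mem_mx.mp (hPq h3)) ht
      · exact h3
    exact (hcon P hP h2 hPq).ge
  exact absurd (Ideal.height_le_card_of_mem_minimalPrimes_span_finset h1) (not_le.mpr hcard)

/-- Nullstellensatz: maximal ideals are points -/
theorem exists_hom [Algebra.FiniteType ℂ R] (N : Ideal R) [N.IsMaximal] :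
    ∃ z : R →ₐ[ℂ] ℂ, mx z = N := by
  let _ : Field (R ⧸ N) := Ideal.Quotient.field N
  have : Module.Finite ℂ (R ⧸ N) := finite_of_finite_type_of_isJacobsonRing ℂ (R ⧸ N)
  have hb : Function.Bijective (algebraMap ℂ (R ⧸ N)) :=
    IsAlgClosed.algebraMap_bijective_of_isIntegral
  set e : ℂ ≃ₐ[ℂ] (R ⧸ N) := AlgEquiv.ofBijective (Algebra.ofId ℂ (R ⧸ N)) hb
  refine ⟨e.symm.toAlgHom.comp (Ideal.Quotient.mkₐ ℂ N), ?_⟩
  ext x
  rw [mem_mx]
  simp only [AlgHom.comp_apply]
  constructor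
  · intro h
    have h1 : e (e.symm (Ideal.Quotient.mkₐ ℂ N x)) = e 0 := congrArg e h
    rw [AlgEquiv.apply_symm_apply, map_zero] at h1
    exact Ideal.Quotient.eq_zero_iff_mem.mp h1
  · intro h
    have h1 : Ideal.Quotient.mkₐ ℂ N x = 0 := Ideal.Quotient.eq_zero_iff_mem.mpr h
    rw [h1]
    exact map_zero e.symm

/-- a prime strictly below the maximal ideal of `q` lies below another point -/
theorem exists_hom_ne [Algebra.FiniteType ℂ R] {q : R →ₐ[ℂ] ℂ} {P : Ideal R} (hP : P.IsPrime)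
    (hne : P ≠ mx q) (hle : P ≤ mx q) : ∃ z : R →ₐ[ℂ] ℂ, P ≤ mx z ∧ z ≠ q := by
  by_contra hcon
  push Not at hcon
  have : IsJacobsonRing R := isJacobsonRing_of_finiteType (A := ℂ)
  apply hne
  refine le_antisymm hle ?_
  have h1 : P.jacobson = P := by rw [← Ideal.radical_eq_jacobson, hP.radical]
  rw [← h1]
  refine le_sInf ?_
  rintro N ⟨hPN, hN⟩
  obtain ⟨z, rfl⟩ := exists_hom N
  rw [hcon z hPN]

/-- **incoming points** : if some weight at the regular point `q` is negative then there is a point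
different from `q` which converges to `q` -/
theorem incoming [IsNoetherianRing R] [Algebra.FiniteType ℂ R] {𝒜 : ℤ → Submodule ℂ R}
    [GradedAlgebra 𝒜] {q : R →ₐ[ℂ] ℂ} (hq : Fix 𝒜 q) {n : ℕ} {u : Fin n → R} {wt : Fin n → ℤ}
    (G : Gens 𝒜 q u wt) (hn : (n : ℕ∞) ≤ (mx q).height) (hneg : ∃ i, wt i < 0) :
    ∃ z : R →ₐ[ℂ] ℂ, z ≠ q ∧ (∀ x ∈ 𝒜 0, z x = q x) ∧ ∀ w > 0, ∀ x ∈ 𝒜 w, z x = 0 := by
  classical
  set S : Finset (Fin n) := Finset.univ.filter fun i => 0 ≤ wt i with hS
  have hSc : S.card < n := by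
    obtain ⟨i, hi⟩ := hneg
    have : S ⊂ Finset.univ := by
      refine Finset.filter_ssubset.mpr ⟨i, Finset.mem_univ _, not_le.mpr hi⟩
    simpa using Finset.card_lt_card this
  set J : Ideal R := Ideal.span {x | ∃ w : ℤ, 0 ≤ w ∧ x ∈ 𝒜 w ∧ x ∈ mx q} with hJ
  have hloc0 : ∀ w : ℤ, 0 ≤ w → ∀ b ∈ 𝒜 w, b ∈ mx q →
      ∃ t, q t ≠ 0 ∧ t * b ∈ Ideal.span ((S.image u : Finset R) : Set R) := by
    intro w hw b hb hbm
    obtain ⟨t, ht, h⟩ := lemmaA hq G (C := {w | 0 ≤ w}) (J := {i | 0 ≤ wt i}) (fun w hw i hi => by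
      simp only [Set.mem_ofPred_eq, not_le] at hw hi ⊢
      constructor
      · linarith
      · intro h; linarith) hw hb hbm
    refine ⟨t, by rw [ht]; exact one_ne_zero, ?_⟩
    have e : ((S.image u : Finset R) : Set R) = u '' {i | 0 ≤ wt i} := by
      rw [Finset.coe_image, hS]
      congr 1
      ext i
      simp
    rw [e]
    exact h
  have hloc : ∀ b ∈ J, ∃ t, q t ≠ 0 ∧ t * b ∈ Ideal.span ((S.image u : Finset R) : Set R) := by
    intro b hb
    refine Submodule.span_induction (p := fun b _ => ∃ t, q t ≠ 0 ∧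
      t * b ∈ Ideal.span ((S.image u : Finset R) : Set R)) ?_ ?_ ?_ ?_ hb
    · rintro x ⟨w, hw, hx, hxm⟩
      exact hloc0 w hw x hx hxm
    · exact ⟨1, by simp, by simp⟩
    · rintro x y _ _ ⟨t, ht, h⟩ ⟨t', ht', h'⟩
      refine ⟨t * t', by rw [map_mul]; exact mul_ne_zero ht ht', ?_⟩
      have e : t * t' * (x + y) = t' * (t * x) + t * (t' * y) := by ring
      rw [e]
      exact Ideal.add_mem _ (Ideal.mul_mem_left _ _ h) (Ideal.mul_mem_left _ _ h')
    · rintro a x _ ⟨t, ht, h⟩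
      refine ⟨t, ht, ?_⟩
      rw [smul_eq_mul, mul_left_comm]
      exact Ideal.mul_mem_left _ _ h
  have hcard : ((S.image u).card : ℕ∞) < (mx q).height := by
    refine lt_of_lt_of_le ?_ hn
    exact_mod_cast Finset.card_image_le.trans_lt hSc
  obtain ⟨P, hP, hJP, hPq, hne⟩ := exists_point hcard (by
    rw [Ideal.span_le, Finset.coe_image]
    rintro _ ⟨i, -, rfl⟩
    exact mem_mx.mpr (G.zero i)) hloc
  obtain ⟨z, hz, hzq⟩ := exists_hom_ne hP hne hPq
  refine ⟨z, hzq, ?_, ?_⟩
  · intro x hx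
    have h1 : x - algebraMap ℂ R (q x) ∈ J := by
      refine Ideal.subset_span ⟨0, le_rfl, ?_, ?_⟩
      · exact Submodule.sub_mem _ hx (SetLike.algebraMap_mem_graded 𝒜 _)
      · rw [mem_mx, map_sub, AlgHom.commutes]
        simp
    have h2 := mem_mx.mp (hz (hJP h1))
    rw [map_sub, AlgHom.commutes] at h2
    simpa [sub_eq_zero] using h2
  · intro w hw x hx
    exact mem_mx.mp (hz (hJP (Ideal.subset_span ⟨w, hw.le, hx, mem_mx.mpr (hq w hw.ne' x hx)⟩)))

end Vale.Agent.P280.H127
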