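import Vale.Agent.P280.H127.Cover
import Vale.Agent.P280.H939.E3c

/-!
P280 (B1): the two charts of the source line, from the hypotheses on the weights.
-/

open DirectSum Vale.Agent.P280.T Vale.Agent.P280.H939

namespace Vale.Agent.P280.H127

section
variable {M : Type} [AddCommGroup M] [DecidableEq M] {R : Type} [CommRing R] [Algebra ℂ R]
variable {𝒜 : ℕ × M → Submodule ℂ R} [GradedAlgebra 𝒜]

/-- The coordinate along the line in the chart at `p`. -/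
theorem evs_coord {l L g : M →+ ℤ} {μ : M} {p : R →ₐ[ℂ] ℂ} {f f1 : R} {n k : ℕ} {u : Fin n → R}
    {χ : Fin n → M} {φ : R →ₐ[ℂ] MvPolynomial (Fin 2) ℂ} (C : CData 𝒜 L μ p f u χ)
    (i0 : {i : Fin n // 0 < L (χ i)}) (h0 : l (χ i0) = 0) (hg : 0 < g (χ i0))
    (D : LData 𝒜 l μ (χ i0) f f1 k φ) :
    ∃ c : ℂ, c ≠ 0 ∧ evs (φ (u i0)) = Polynomial.C c * Polynomial.X := by
  have hdom := C.dom
  let Kf := FractionRing R
  have hKinj : Function.Injective (algebraMap R Kf) := IsFractionRing.injective R Kf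
  have hF : algebraMap R Kf f ≠ 0 := by
    intro h
    exact C.f_ne (hKinj (by rw [h, map_zero]))
  obtain ⟨N, b, hb, h1, h2⟩ := clear_deh C.hf hF (C.gens.hom i0)
  have hb0 : b ≠ 0 := by
    rintro rfl
    rw [map_zero] at h1
    have h3 : deh 𝒜 hF (u i0) = 0 := (mul_eq_zero.1 h1).resolve_left (pow_ne_zero _ hF)
    have h4 : PsiM 𝒜 L hF u χ (MvPolynomial.X (some i0)) = PsiM 𝒜 L hF u χ 0 := by
      rw [PsiM_some, h3, map_zero]
    exact MvPolynomial.X_ne_zero (some i0) (C.inj hKinj hF h4)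
  obtain ⟨c, i, j, hc, -, hm, hφ⟩ := D.low N (N • μ + χ i0)
    (by rw [add_sub_cancel_left, h0]) b hb hb0
  have hj : j = 1 := by
    have h3 : χ i0 = j • χ i0 := add_left_cancel hm
    have h4 := congrArg g h3
    rw [map_nsmul, nsmul_eq_mul] at h4
    have h5 : (j : ℤ) = 1 := by
      have h6 : ((j : ℤ) - 1) * g (χ i0) = 0 := by linarith
      rcases mul_eq_zero.1 h6 with h7 | h7
      · linarith
      · exact absurd h7 hg.ne'
    exact_mod_cast h5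
  have h5 : evs (φ (u i0)) = evs (φ b) := by
    obtain ⟨e, he⟩ := h2
    have h6 := congrArg (fun x => evs (φ x)) he
    simp only [map_sub, map_mul, map_one] at h6
    rw [D.phif, map_pow, evs_zero, one_pow, sub_self, zero_mul, sub_eq_zero] at h6
    exact h6.symm
  refine ⟨c, hc, ?_⟩
  have h6 : evs (MvPolynomial.C c) = Polynomial.C c := by
    unfold evs
    rw [MvPolynomial.aeval_C]
    rfl
  rw [h5, hφ, map_mul, map_mul, map_pow, map_pow, evs_zero, evs_one, h6, hj, one_pow, one_mul,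
    pow_one]

/-- Everything about the source line, from the hypotheses on the weights. -/
theorem exists_setup (hX : IsTorusManifold 𝒜) (l g : M →+ ℤ) (p : R →ₐ[ℂ] ℂ) (μ : M) (a : ℤ)
    (hp : ¬ IsVertex 𝒜 p) (hp' : IsFixed 𝒜 p μ)
    (h1 : ∀ χ, TangentWeight 𝒜 p μ χ → 0 < l χ ∨ (l χ = 0 ∧ 0 < g χ))
    (h2 : ∃ χ, TangentWeight 𝒜 p μ χ ∧ l χ = 0)
    (h3 : ∀ (x : R →ₐ[ℂ] ℂ) (ν χ : M), ¬ IsVertex 𝒜 x → IsFixed 𝒜 x ν → l ν = l μ →
      TangentWeight 𝒜 x ν χ → l χ ≤ a)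
    (K1 : ∀ (x : R →ₐ[ℂ] ℂ) (ν χ χ' : M), ¬ IsVertex 𝒜 x → IsFixed 𝒜 x ν → l ν = l μ →
      TangentWeight 𝒜 x ν χ → TangentWeight 𝒜 x ν χ' → l χ = 0 → l χ' = 0 → χ = χ')
    (K2 : ∀ (x : R →ₐ[ℂ] ℂ) (ν χ : M) (v v' : R →ₗ[ℂ] ℂ), ¬ IsVertex 𝒜 x → IsFixed 𝒜 x ν →
      l ν = l μ → l χ = 0 → χ ≠ 0 → IsTangent x v → HasWeight 𝒜 ν χ v → IsTangent x v' →
      HasWeight 𝒜 ν χ v' → ∃ c c' : ℂ, (c ≠ 0 ∨ c' ≠ 0) ∧ ∀ h, c * v h + c' * v' h = 0) :
    ∃ (L : M →+ ℤ) (n : ℕ) (u : Fin n → R) (χ : Fin n → M) (i0 : {i : Fin n // 0 < L (χ i)})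
      (f f1 : R) (k : ℕ) (φ : R →ₐ[ℂ] MvPolynomial (Fin 2) ℂ) (c0 : ℂ) (L' : M →+ ℤ)
      (q : R →ₐ[ℂ] ℂ) (n' : ℕ) (u' : Fin n' → R) (χ' : Fin n' → M)
      (i1 : {i : Fin n' // 0 < L' (χ' i)}) (c1 : ℂ),
      CData 𝒜 L μ p f u χ ∧ l (χ i0) = 0 ∧
      (∀ i : {i : Fin n // 0 < L (χ i)}, i ≠ i0 → 0 < l (χ i)) ∧
      LData 𝒜 l μ (χ i0) f f1 k φ ∧ c0 ≠ 0 ∧ evs (φ (u i0)) = Polynomial.C c0 * Polynomial.X ∧
      (∀ i : {i : Fin n // 0 < L (χ i)}, l (χ i) ≤ a) ∧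
      CData 𝒜 L' (μ + k • χ i0) q f1 u' χ' ∧ l (χ' i1) = 0 ∧
      (∀ i : {i : Fin n' // 0 < L' (χ' i)}, i ≠ i1 → 0 < l (χ' i)) ∧ c1 ≠ 0 ∧
      evt (φ (u' i1)) = Polynomial.C c1 * Polynomial.X ∧
      (∀ i : {i : Fin n' // 0 < L' (χ' i)}, l (χ' i) ≤ a) ∧ q = infty φ := by
  obtain ⟨K, hK0, hK⟩ := H587.exists_bound (S := H587.wts 𝒜) (finite_weights hX) g
  have hKw : ∀ (x : R →ₐ[ℂ] ℂ) (ν χ : M), ¬ IsVertex 𝒜 x → IsFixed 𝒜 x ν →
      TangentWeight 𝒜 x ν χ → |g χ| < K + 1 := by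
    intro x ν χ hx0 hx hχ
    obtain ⟨h4, h5⟩ := H587.tangentWeight_mem hX hx0 hx hχ
    have h6 := hK _ h5 _ h4
    rw [add_sub_cancel_left] at h6
    omega
  let L : M →+ ℤ := (K + 1) • l + g
  have hL : ∀ m, L m = (K + 1) * l m + g m := fun m => by
    change (K + 1) • l m + g m = _
    rw [smul_eq_mul]
  obtain ⟨K', hK0', hK'⟩ := H587.exists_bound (S := H587.wts 𝒜) (finite_weights hX) L
  have hs : IsSource 𝒜 L p μ K' := by
    refine ⟨hp, hp', fun χ hχ => ⟨?_, ?_⟩⟩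
    · have h4 := abs_lt.1 (hKw p μ χ hp hp' hχ)
      rw [hL]
      rcases h1 χ hχ with h5 | ⟨h5, h6⟩
      · have h7 : 1 ≤ l χ := h5
        nlinarith
      · rw [h5]
        linarith
    · obtain ⟨h4, h5⟩ := H587.tangentWeight_mem hX hp hp' hχ
      have h6 := hK' _ h5 _ h4
      rw [add_sub_cancel_left] at h6
      exact (abs_le.1 h6).2
  obtain ⟨f, n, u, χ, C⟩ := exists_cdata hX hs
  obtain ⟨χ0, hχ0, hl0⟩ := h2
  obtain ⟨i, hi⟩ := wt_of_tangentWeight hX hp' C.gens C.ht hχ0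
  have hiL : 0 < L (χ i) := by
    rw [hi]
    exact (hs.2.2 χ0 hχ0).1
  have hg0 : 0 < g (χ i) := by
    rw [hL, hi, hl0, mul_zero, zero_add] at hiL
    rw [hi]
    exact hiL
  have htan : ∀ j : {i : Fin n // 0 < L (χ i)}, TangentWeight 𝒜 p μ (χ j) := by
    rintro ⟨j, hj⟩
    refine tangentWeight_of_wt hX hp' C.gens C.ht ?_
    intro h0
    rw [h0, map_zero] at hj
    exact lt_irrefl _ hj
  have hother : ∀ j : {i : Fin n // 0 < L (χ i)}, j ≠ ⟨i, hiL⟩ → 0 < l (χ j) := by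
    rintro ⟨j, hj⟩ hne
    have hne' : j ≠ i := fun h => hne (Subtype.ext h)
    have hjt := htan ⟨j, hj⟩
    have hj0 : χ j ≠ 0 := by
      intro h0
      rw [h0, map_zero] at hj
      exact lt_irrefl _ hj
    rcases h1 _ hjt with h4 | ⟨h4, -⟩
    · exact h4
    exfalso
    have h5 := K1 _ _ _ _ hp hp' rfl hjt hχ0 h4 hl0
    obtain ⟨v, hv, hw, hvu, -⟩ :=
      exists_weight_vector hX (fix_of_isFixed hp') C.gens C.ht j
    obtain ⟨v', hv', hw', hvu', -⟩ :=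
      exists_weight_vector hX (fix_of_isFixed hp') C.gens C.ht i
    change χ j = χ0 at h5
    rw [h5] at hw hj0
    rw [hi] at hw'
    obtain ⟨c, c', hcc, h6⟩ := K2 _ _ χ0 v v' hp hp' rfl hl0 hj0 hv hw hv' hw'
    have h7 := h6 (u j)
    have h8 := h6 (u i)
    rw [hvu j, hvu' j, if_pos rfl, if_neg hne'.symm, mul_one, mul_zero, add_zero] at h7
    rw [hvu i, hvu' i, if_pos rfl, if_neg hne', mul_one, mul_zero, zero_add] at h8
    rcases hcc with h | h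
    · exact h h7
    · exact h h8
  have hli : l (χ i) = 0 := by rw [hi, hl0]
  obtain ⟨f1, k, φ, D⟩ := C.exists_line hX ⟨i, hiL⟩ hli hother
  obtain ⟨c0, hc0, hev⟩ := evs_coord C ⟨i, hiL⟩ hli hg0 D
  obtain ⟨L', q, n', u', χ', i1, c1, C', hi1, hother', hc1, hev', hq⟩ :=
    exists_infty hX hKw hs C hg0 D K1 K2
  have hlq : l (μ + k • χ i) = l μ := by
    rw [map_add, map_nsmul, hli, smul_zero, add_zero]
  refine ⟨L, n, u, χ, ⟨i, hiL⟩, f, f1, k, φ, c0, L', q, n', u', χ', i1, c1, C, hli, hother, D,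
    hc0, hev, ?_, C', hi1, hother', hc1, hev', ?_, hq⟩
  · intro j
    exact h3 p μ _ hp hp' rfl (htan j)
  · intro j
    have hq0 : ¬ IsVertex 𝒜 q := by
      rw [hq]
      exact ld_infty_vertex D
    refine h3 q (μ + k • χ i) _ hq0 C'.fix hlq
      (tangentWeight_of_wt hX C'.fix C'.gens C'.ht ?_)
    intro h0
    have h4 := j.2
    rw [h0, map_zero] at h4
    exact lt_irrefl _ h4

end

end Vale.Agent.P280.H127
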