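import Vale.Agent.P280.H127.Trans2
import Vale.Agent.P280.H587.CorC

/-!
P280: under the hypotheses of Theorem II the point `p` is an isolated source of a one-parameter
group.
-/

open DirectSum Vale.Agent.P280.T

namespace Vale.Agent.P280.H127

theorem tangent_pow {R : Type} [CommRing R] [Algebra ℂ R] {p : R →ₐ[ℂ] ℂ} {v : R →ₗ[ℂ] ℂ}
    (hv : IsTangent p v) (f : R) (d : ℕ) : p f * v (f ^ d) = d * p f ^ d * v f := by
  induction d with
  | zero =>
    have h1 : v 1 = 0 := by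
      have h := hv 1 1
      rw [mul_one, map_one p, one_mul] at h
      linear_combination -h
    rw [pow_zero, h1]
    simp
  | succ d ih =>
    rw [pow_succ, hv, map_pow]
    push_cast
    linear_combination p f * ih

variable {r : ℕ} {R : Type} [CommRing R] [Algebra ℂ R] {𝒜 : ℕ × (Fin r → ℤ) → Submodule ℂ R}
  [GradedAlgebra 𝒜]

/-- If `0` is extremal then `X` is a point, and `0` is not a tangent weight. -/
theorem not_tangentWeight_zero (hX : IsTorusManifold 𝒜) {p : R →ₐ[ℂ] ℂ} {μ : Fin r → ℤ}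
    (hp0 : ¬ IsVertex 𝒜 p) (h1 : IsExtremal 𝒜 (0 : Fin r → ℤ)) : ¬ TangentWeight 𝒜 p μ 0 := by
  obtain ⟨l, q, ξ, hq0, hq, hqw⟩ := h1
  have hno : ∀ χ, ¬ TangentWeight 𝒜 q ξ χ := fun χ hχ => by
    have := hqw χ hχ
    rw [map_zero] at this
    omega
  have hw : ∀ (d : ℕ) (m : Fin r → ℤ), ∀ h ∈ 𝒜 (d, m), h ≠ 0 → m = d • ξ := by
    intro d m h hh hne
    funext i
    have e1 := H587.low_of_fixed hX hq0 hq (l := Pi.evalAddMonoidHom (fun _ => ℤ) i)
      (fun χ hχ => absurd hχ (hno χ)) d m h hh hne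
    have e2 := H587.low_of_fixed hX hq0 hq (l := -Pi.evalAddMonoidHom (fun _ => ℤ) i)
      (fun χ hχ => absurd hχ (hno χ)) d m h hh hne
    rw [AddMonoidHom.neg_apply, AddMonoidHom.neg_apply, smul_neg] at e2
    have e3 : (Pi.evalAddMonoidHom (fun _ => ℤ) i) m = m i := rfl
    have e4 : (Pi.evalAddMonoidHom (fun _ => ℤ) i) ξ = ξ i := rfl
    rw [e3, e4] at e1 e2
    rw [Pi.smul_apply]
    linarith
  have hX' := H587.isTorusManifold_co (l := l) hX
  have hs : IsSource 𝒜 l q ξ 0 := ⟨hq0, hq, fun χ hχ => absurd hχ (hno χ)⟩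
  obtain ⟨f, hf, hqf⟩ := H939.source_s1 hX' (H587.isSource_co hs)
  obtain ⟨-, h2⟩ := H939.source_s2 hX' (H587.isSource_co hs)
  have hspan : ∀ (d : ℕ) (m : Fin r → ℤ), ∀ h ∈ 𝒜 (d, m), ∃ c : ℂ, h = c • f ^ d := by
    intro d m h hh
    by_cases h0 : h = 0
    · exact ⟨0, by rw [h0, zero_smul]⟩
    · refine h2 f hf (by rw [hqf]; exact one_ne_zero) d h ?_
      have h3 : l m = d • l ξ := by rw [hw d m h hh h0, map_nsmul]
      rw [← h3]
      exact H587.mem_co hh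
  rintro ⟨v, hv, -, hc⟩
  have hpf : p f ≠ 0 := by
    intro h0
    apply hp0
    intro d m hd h hh
    obtain ⟨c, hc⟩ := hspan d m h hh
    rw [hc, map_smul, map_pow, h0, zero_pow hd.ne', smul_zero]
  obtain ⟨d, m, h, hh, hne⟩ := hc (v f / p f)
  apply hne
  obtain ⟨c, hc⟩ := hspan d m h hh
  have h3 := tangent_pow hv f d
  have e1 : v h = c * v (f ^ d) := by rw [hc, map_smul, smul_eq_mul]
  have e2 : p h = c * p f ^ d := by rw [hc, map_smul, smul_eq_mul, map_pow]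
  rw [e1, e2]
  apply mul_left_cancel₀ hpf
  have e3 : p f * (v f / p f * d * (c * p f ^ d)) = c * (d * p f ^ d * v f) := by
    field_simp
  rw [e3, ← h3]
  ring

/-- If all the fixed points of the torus but `p` have a weight which is negative for `l`, and zero
is not a weight at `p`, then `p` is an isolated source for some one-parameter group. -/
theorem exists_isSource (hX : IsTorusManifold 𝒜) {p : R →ₐ[ℂ] ℂ} {μ : Fin r → ℤ}
    (hp0 : ¬ IsVertex 𝒜 p) (hp : IsFixed 𝒜 p μ) (h0 : ¬ TangentWeight 𝒜 p μ 0)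
    (l : (Fin r → ℤ) →+ ℤ)
    (hneg : ∀ (x : R →ₐ[ℂ] ℂ) (ν : Fin r → ℤ), ¬ IsVertex 𝒜 x → IsFixed 𝒜 x ν →
      ¬ SamePoint 𝒜 p x → ∃ χ, TangentWeight 𝒜 x ν χ ∧ l χ < 0) :
    ∃ (l' : (Fin r → ℤ) →+ ℤ) (a : ℤ), 0 < a ∧ IsSource 𝒜 l' p μ a := by
  obtain ⟨l', hinj, hl'⟩ := exists_generic_of hX l
  obtain ⟨K, hK0, hK⟩ := H587.exists_bound (S := H587.wts 𝒜) (finite_weights hX) l'
  obtain ⟨γ, y, hy0, -, hy1, hlow, m, hm, g, hg, hyg⟩ := exists_lowest hX l' (I := ⊥)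
    (by
      intro x hx i
      rw [Ideal.mem_bot] at hx
      rw [hx, decompose_zero, DirectSum.zero_apply]
      exact Submodule.zero_mem _)
    (by
      obtain ⟨z, hz⟩ := hX.nonempty
      refine ⟨z, ?_, hz⟩
      intro x hx
      rw [Ideal.mem_bot] at hx
      rw [hx, map_zero])
  have hdom := hX.domain
  have hlow' : ∀ m' ∈ H587.wts 𝒜, γ ≤ l' m' := by
    rintro m' ⟨h, hh, hne⟩
    have h1 := hlow 1 m' h hh (by
      rintro ⟨n, hn⟩
      rw [Ideal.mem_bot] at hn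
      exact hne ((pow_eq_zero_iff n.succ_ne_zero).1 (by rw [pow_succ, hn, zero_mul])))
    rwa [one_smul] at h1
  have hy : IsFixed 𝒜 y m := by
    refine H587.isFixed_of_one hX fun m' h hh hne => ?_
    apply hinj ⟨h, hh, fun h0 => hne (by rw [h0, map_zero])⟩
      ⟨g, hg, fun h0 => hyg (by rw [h0, map_zero])⟩
    have h1 := hy1 1 m' h hh hne
    rw [one_smul] at h1
    rw [h1, hm]
  have hs : SamePoint 𝒜 p y := by
    by_contra hs
    obtain ⟨χ, hχ, hχ0⟩ := hneg y m hy0 hy hs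
    have h1 := hl' y m χ hy0 hy hχ hχ0
    have h2 := hlow' _ (H587.tangentWeight_mem hX hy0 hy hχ).2
    rw [map_add, hm] at h2
    omega
  have hμ : l' μ = γ := by
    obtain ⟨c, hc, hc'⟩ := hs
    have h1 : p g ≠ 0 := by
      intro h1
      apply hyg
      rw [hc' 1 m g hg, h1, mul_zero]
    have h2 := hp 1 m g hg h1
    rw [one_smul] at h2
    rw [← h2, hm]
  refine ⟨l', K + 1, by omega, hp0, hp, fun χ hχ => ?_⟩
  obtain ⟨h1, h2⟩ := H587.tangentWeight_mem hX hp0 hp hχ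
  have h3 := hlow' _ h2
  rw [map_add, hμ] at h3
  have h4 : l' χ ≠ 0 := by
    intro h4
    have h5 : μ + χ = μ := hinj h2 h1 (by rw [map_add, h4, add_zero])
    have h6 : χ = 0 := by
      have h7 : μ + χ = μ + 0 := by rw [h5, add_zero]
      exact add_left_cancel h7
    exact h0 (h6 ▸ hχ)
  have h5 := hK _ h2 _ h1
  rw [add_sub_cancel_left] at h5
  have h6 := (abs_le.1 h5).2
  omega

/-- Under the hypotheses of Theorem II the point `p` is an isolated source. -/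
theorem exists_isSource_II (hX : IsTorusManifold 𝒜) {p : R →ₐ[ℂ] ℂ} {μ : Fin r → ℤ}
    (hp0 : ¬ IsVertex 𝒜 p) (hp : IsFixed 𝒜 p μ)
    (h1 : ∀ χ, TangentWeight 𝒜 p μ χ → IsExtremal 𝒜 χ) (l : (Fin r → ℤ) →+ ℤ)
    (h2 : ∀ x ν, ¬ IsVertex 𝒜 x → IsFixed 𝒜 x ν → ¬ SamePoint 𝒜 p x →
      ∃ χ, TangentWeight 𝒜 x ν χ ∧ IsExtremal 𝒜 χ ∧ l χ < 0) :
    ∃ (l' : (Fin r → ℤ) →+ ℤ) (a : ℤ), 0 < a ∧ IsSource 𝒜 l' p μ a := by
  refine exists_isSource hX hp0 hp (fun h => not_tangentWeight_zero hX hp0 (h1 0 h) h) l ?_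
  intro x ν hx hν hs
  obtain ⟨χ, h3, -, h4⟩ := h2 x ν hx hν hs
  exact ⟨χ, h3, h4⟩

end Vale.Agent.P280.H127
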