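import Vale.Agent.P280.H127.LowerBound

/-!
P280 (T3): if the orbits are open and all the fixed points but one have a negative weight, there is
only one orbit.
-/

open DirectSum Vale.Agent.P280.T Vale.Agent.P280.H644

namespace Vale.Agent.P280.H127

variable {R : Type} [CommRing R] [Algebra ℂ R] {𝒜 : ℕ × ℤ → Submodule ℂ R}

/-- An equivalence relation on the points, with open classes of non-vertices, which contains the
orbits of the one-parameter group and of the scalars. -/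
structure OpenRel (𝒜 : ℕ × ℤ → Submodule ℂ R) (Rel : (R →ₐ[ℂ] ℂ) → (R →ₐ[ℂ] ℂ) → Prop) :
    Prop where
  symm : ∀ {p q}, Rel p q → Rel q p
  trans : ∀ {p q r}, Rel p q → Rel q r → Rel p r
  torus : ∀ c : ℂ, c ≠ 0 → ∀ p q : R →ₐ[ℂ] ℂ,
    (∀ (d : ℕ) (m : ℤ), ∀ h ∈ 𝒜 (d, m), q h = c ^ m * p h) → Rel p q
  scalar : ∀ c : ℂ, c ≠ 0 → ∀ p q : R →ₐ[ℂ] ℂ,
    (∀ (d : ℕ) (m : ℤ), ∀ h ∈ 𝒜 (d, m), q h = c ^ d * p h) → Rel p q
  near : ∀ z : R →ₐ[ℂ] ℂ, ¬ IsVertex 𝒜 z → ∃ (F : Finset R) (ε : ℝ), 0 < ε ∧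
    ∀ z' : R →ₐ[ℂ] ℂ, ¬ IsVertex 𝒜 z' → (∀ f ∈ F, ‖z' f - z f‖ < ε) → Rel z z'

variable [GradedAlgebra 𝒜]

/-- the point `t z` -/
theorem exists_twist (𝒜 : ℕ × ℤ → Submodule ℂ R) [GradedAlgebra 𝒜] (z : R →ₐ[ℂ] ℂ)
    (φ : ℕ × ℤ →+ ℤ) {t : ℂ} (ht : t ≠ 0) :
    ∃ z' : R →ₐ[ℂ] ℂ, ∀ i, ∀ h ∈ 𝒜 i, z' h = t ^ φ i * z h := by
  obtain ⟨z', hz'⟩ := exists_algHom 𝒜 (fun i => (t ^ φ i) • z.toLinearMap) (by simp) (by
    intro i j a _ b _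
    simp only [LinearMap.smul_apply, AlgHom.toLinearMap_apply, smul_eq_mul, map_mul, map_add,
      zpow_add₀ ht]
    ring)
  exact ⟨z', fun i h hh => by rw [hz' i h hh]; rfl⟩

/-- `t z` is close to the limit of `z` if `t` is small -/
theorem twist_near {z : R →ₐ[ℂ] ℂ} {φ : ℕ × ℤ →+ ℤ} (hφ : Supp 𝒜 z φ) (f : R) :
    ∀ ε : ℝ, 0 < ε → ∃ δ : ℝ, 0 < δ ∧ ∀ t : ℂ, t ≠ 0 → ‖t‖ < δ → ∀ z' : R →ₐ[ℂ] ℂ,
      (∀ i, ∀ h ∈ 𝒜 i, z' h = t ^ φ i * z h) → ‖z' f - lim 𝒜 hφ f‖ < ε := by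
  induction f using DirectSum.Decomposition.inductionOn 𝒜 with
  | zero =>
    intro ε hε
    refine ⟨1, one_pos, fun t _ _ z' _ => ?_⟩
    rw [map_zero, map_zero, sub_zero, norm_zero]
    exact hε
  | homogeneous h =>
    rename_i i
    obtain ⟨h, hh⟩ := h
    intro ε hε
    change ∃ δ : ℝ, 0 < δ ∧ ∀ t : ℂ, t ≠ 0 → ‖t‖ < δ → ∀ z' : R →ₐ[ℂ] ℂ,
      (∀ i, ∀ h ∈ 𝒜 i, z' h = t ^ φ i * z h) → ‖z' h - lim 𝒜 hφ h‖ < ε
    refine ⟨min 1 (ε / (‖z h‖ + 1)), lt_min one_pos (by positivity), fun t ht htd z' hz' => ?_⟩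
    rw [hz' i h hh, lim_mem 𝒜 hφ hh]
    by_cases h0 : φ i = 0
    · rw [if_pos h0, h0, zpow_zero, one_mul, sub_self, norm_zero]
      exact hε
    · rw [if_neg h0, sub_zero]
      by_cases h1 : z h = 0
      · rw [h1, mul_zero, norm_zero]
        exact hε
      · have h2 : 0 < φ i := lt_of_le_of_ne (hφ i h hh h1) (Ne.symm h0)
        obtain ⟨n, hn⟩ : ∃ n : ℕ, φ i = (n : ℤ) + 1 := ⟨(φ i - 1).toNat, by omega⟩
        have h3 : ‖t ^ φ i‖ ≤ ‖t‖ := by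
          rw [hn, zpow_add₀ ht, zpow_one, zpow_natCast, norm_mul, norm_pow]
          have h4 : ‖t‖ ≤ 1 := (lt_of_lt_of_le htd (min_le_left _ _)).le
          have h5 : ‖t‖ ^ n ≤ 1 := pow_le_one₀ (norm_nonneg _) h4
          exact mul_le_of_le_one_left (norm_nonneg _) h5
        have h4 : ‖t‖ < ε / (‖z h‖ + 1) := lt_of_lt_of_le htd (min_le_right _ _)
        rw [lt_div_iff₀ (by positivity)] at h4
        rw [norm_mul]
        calc ‖t ^ φ i‖ * ‖z h‖ ≤ ‖t‖ * ‖z h‖ := mul_le_mul_of_nonneg_right h3 (norm_nonneg _)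
          _ ≤ ‖t‖ * (‖z h‖ + 1) := mul_le_mul_of_nonneg_left (by linarith) (norm_nonneg _)
          _ < ε := h4
  | add a b ha hb =>
    intro ε hε
    obtain ⟨δ, hδ, h1⟩ := ha (ε / 2) (by linarith)
    obtain ⟨δ', hδ', h2⟩ := hb (ε / 2) (by linarith)
    refine ⟨min δ δ', lt_min hδ hδ', fun t ht htd z' hz' => ?_⟩
    have h3 := h1 t ht (lt_of_lt_of_le htd (min_le_left _ _)) z' hz'
    have h4 := h2 t ht (lt_of_lt_of_le htd (min_le_right _ _)) z' hz'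
    have h5 : z' (a + b) - lim 𝒜 hφ (a + b) =
        (z' a - lim 𝒜 hφ a) + (z' b - lim 𝒜 hφ b) := by
      rw [map_add, map_add]
      ring
    rw [h5]
    refine lt_of_le_of_lt (norm_add_le _ _) ?_
    linarith

theorem twist_near_finset {z : R →ₐ[ℂ] ℂ} {φ : ℕ × ℤ →+ ℤ} (hφ : Supp 𝒜 z φ) (F : Finset R)
    {ε : ℝ} (hε : 0 < ε) : ∃ δ : ℝ, 0 < δ ∧ ∀ t : ℂ, t ≠ 0 → ‖t‖ < δ → ∀ z' : R →ₐ[ℂ] ℂ,
      (∀ i, ∀ h ∈ 𝒜 i, z' h = t ^ φ i * z h) → ∀ f ∈ F, ‖z' f - lim 𝒜 hφ f‖ < ε := by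
  classical
  induction F using Finset.induction_on with
  | empty => exact ⟨1, one_pos, fun t _ _ z' _ f hf => absurd hf (Finset.notMem_empty f)⟩
  | insert a F _ ih =>
    obtain ⟨δ, hδ, h1⟩ := ih
    obtain ⟨δ', hδ', h2⟩ := twist_near hφ a ε hε
    refine ⟨min δ δ', lt_min hδ hδ', fun t ht htd z' hz' f hf => ?_⟩
    rcases Finset.mem_insert.1 hf with rfl | hf
    · exact h2 t ht (lt_of_lt_of_le htd (min_le_right _ _)) z' hz'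
    · exact h1 t ht (lt_of_lt_of_le htd (min_le_left _ _)) z' hz' f hf

variable {Rel : (R →ₐ[ℂ] ℂ) → (R →ₐ[ℂ] ℂ) → Prop}

theorem OpenRel.twist (hR : OpenRel 𝒜 Rel) {φ : ℕ × ℤ →+ ℤ} {s k : ℤ}
    (hφ : ∀ d m, φ (d, m) = s * m + k * d) {z z' : R →ₐ[ℂ] ℂ} {t : ℂ} (ht : t ≠ 0)
    (hz' : ∀ i, ∀ h ∈ 𝒜 i, z' h = t ^ φ i * z h) : Rel z z' := by
  let ψ : ℕ × ℤ →+ ℤ := s • AddMonoidHom.snd ℕ ℤ
  obtain ⟨y, hy⟩ := exists_twist 𝒜 z ψ ht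
  have hψ : ∀ (d : ℕ) (m : ℤ), ψ (d, m) = s * m := by
    intro d m
    simp [ψ]
  have h1 : Rel z y := by
    refine hR.torus (t ^ s) (zpow_ne_zero _ ht) z y fun d m h hh => ?_
    rw [hy _ h hh, hψ, zpow_mul]
  have h2 : Rel y z' := by
    refine hR.scalar (t ^ k) (zpow_ne_zero _ ht) y z' fun d m h hh => ?_
    rw [hz' _ h hh, hy _ h hh, hψ, hφ, zpow_add₀ ht, zpow_mul t k, zpow_natCast]
    ring
  exact hR.trans h1 h2

/-- a point and its limit are related -/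
theorem OpenRel.lim (hR : OpenRel 𝒜 Rel) {φ : ℕ × ℤ →+ ℤ} {s k : ℤ}
    (hφ : ∀ d m, φ (d, m) = s * m + k * d) {z : R →ₐ[ℂ] ℂ} (hz : ¬ IsVertex 𝒜 z)
    (hs : Supp 𝒜 z φ) (hl : ¬ IsVertex 𝒜 (H644.lim 𝒜 hs)) : Rel z (H644.lim 𝒜 hs) := by
  obtain ⟨F, ε, hε, hF⟩ := hR.near _ hl
  obtain ⟨δ, hδ, h1⟩ := twist_near_finset hs F hε
  have ht : ((δ / 2 : ℝ) : ℂ) ≠ 0 := by
    rw [Ne, Complex.ofReal_eq_zero]
    linarith
  have ht' : ‖((δ / 2 : ℝ) : ℂ)‖ < δ := by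
    rw [Complex.norm_real, Real.norm_of_nonneg (by linarith)]
    linarith
  obtain ⟨z', hz'⟩ := exists_twist 𝒜 z φ ht
  have hv : ¬ IsVertex 𝒜 z' := by
    intro hv
    apply hz
    intro d m hd h hh
    have h2 := hv d m hd h hh
    rw [hz' _ h hh] at h2
    exact (mul_eq_zero.1 h2).resolve_left (zpow_ne_zero _ ht)
  exact hR.trans (hR.twist hφ ht hz') (hR.symm (hF z' hv (h1 _ ht ht' z' hz')))

omit [GradedAlgebra 𝒜] in
theorem rel_eq (ν : ℤ) (d : ℕ) (m : ℤ) : rel ν (d, m) = m - d * ν := by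
  rw [slope_apply]
  simp only [AddMonoidHom.coe_fst, AddMonoidHom.coe_snd]
  ring

/-- fixed points are related to `p` -/
theorem OpenRel.fixed (hR : OpenRel 𝒜 Rel) (hX : IsTorusManifold 𝒜) {p : R →ₐ[ℂ] ℂ}
    (hneg : ∀ (x : R →ₐ[ℂ] ℂ) (ν : ℤ), ¬ IsVertex 𝒜 x → IsFixed 𝒜 x ν → ¬ SamePoint 𝒜 p x →
      ∃ χ, TangentWeight 𝒜 x ν χ ∧ χ < 0) {b : ℤ}
    (hb : ∀ m, ∀ h ∈ 𝒜 (1, m), h ≠ 0 → b ≤ m) (x : R →ₐ[ℂ] ℂ) (ν : ℤ) (hx : ¬ IsVertex 𝒜 x)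
    (hx' : IsFixed 𝒜 x ν) : Rel x p := by
  induction hN : (ν - b).toNat using Nat.strong_induction_on generalizing x ν with
  | _ N ih =>
  by_cases hs : SamePoint 𝒜 p x
  · obtain ⟨c, hc, hc'⟩ := hs
    exact hR.symm (hR.scalar c hc p x hc')
  obtain ⟨χ, hχ, hχ0⟩ := hneg x ν hx hx' hs
  obtain ⟨z, hzx, hz0, hzs, hzv, -⟩ := incoming_T hX hx hx' hχ hχ0
  have hβ : Supp 𝒜 z (-rel ν) := by
    rintro ⟨d, m⟩ h hh hne
    have h1 := hzs d m h hh hne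
    rw [AddMonoidHom.neg_apply, rel_eq]
    rw [nsmul_eq_mul] at h1
    linarith
  have hlim : H644.lim 𝒜 hβ = x := by
    refine algHom_ext_hom 𝒜 fun i h hh => ?_
    obtain ⟨d, m⟩ := i
    rw [lim_mem 𝒜 hβ hh, AddMonoidHom.neg_apply, rel_eq]
    by_cases hm : m = d • ν
    · rw [if_pos (by rw [hm, nsmul_eq_mul]; ring), hz0 d m h hh hm]
    · rw [if_neg (by
        intro h0
        apply hm
        rw [nsmul_eq_mul]
        linarith)]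
      by_contra hne
      exact hm (hx' d m h hh (Ne.symm hne))
  have h1 : Rel z x := by
    have h2 := hR.lim (φ := -rel ν) (s := -1) (k := ν) (fun d m => by
      rw [AddMonoidHom.neg_apply, rel_eq]
      ring) hzv hβ (by rw [hlim]; exact hx)
    rwa [hlim] at h2
  obtain ⟨ν', hα, ⟨g, hg, hzg⟩, hy, hy'⟩ := exists_lower hX hzv
  have h3 : Rel z (H644.lim 𝒜 hα) := hR.lim (φ := rel ν') (s := 1) (k := -ν') (fun d m => by
      rw [rel_eq]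
      ring) hzv hα hy
  have h4 : ν' ≤ ν := by
    have := hzs 1 ν' g hg hzg
    simpa using this
  have h5 : ν' ≠ ν := by
    intro h5
    apply hzx
    refine algHom_ext_hom 𝒜 fun i h hh => ?_
    obtain ⟨d, m⟩ := i
    by_cases hm : m = d • ν
    · exact hz0 d m h hh hm
    · have h2 : z h = 0 := by
        by_contra hne
        apply hm
        have h6 := hα (d, m) h hh hne
        have h7 := hβ (d, m) h hh hne
        rw [AddMonoidHom.neg_apply, rel_eq] at h7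
        rw [rel_eq, h5] at h6
        rw [nsmul_eq_mul]
        linarith
      have h3 : x h = 0 := by
        by_contra hne
        exact hm (hx' d m h hh hne)
      rw [h2, h3]
  have h6 : b ≤ ν' := hb ν' g hg fun h0 => hzg (by rw [h0, map_zero])
  exact hR.trans (hR.symm h1) (hR.trans h3 (ih _ (by omega) _ ν' hy hy' rfl))

/-- **(T3)** : all the non-vertices are related to `p`. -/
theorem OpenRel.all (hR : OpenRel 𝒜 Rel) (hX : IsTorusManifold 𝒜) {p : R →ₐ[ℂ] ℂ}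
    (hneg : ∀ (x : R →ₐ[ℂ] ℂ) (ν : ℤ), ¬ IsVertex 𝒜 x → IsFixed 𝒜 x ν → ¬ SamePoint 𝒜 p x →
      ∃ χ, TangentWeight 𝒜 x ν χ ∧ χ < 0) {z : R →ₐ[ℂ] ℂ} (hz : ¬ IsVertex 𝒜 z) : Rel z p := by
  obtain ⟨b, hb⟩ := (finite_weights hX).bddBelow
  obtain ⟨ν', hα, -, hy, hy'⟩ := exists_lower hX hz
  have h3 : Rel z (H644.lim 𝒜 hα) := hR.lim (φ := rel ν') (s := 1) (k := -ν') (fun d m => by
      rw [rel_eq]
      ring) hz hα hy
  exact hR.trans h3 (hR.fixed hX hneg (b := b) (fun m h hh hne => hb ⟨h, hh, hne⟩) _ ν' hy hy')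

end Vale.Agent.P280.H127
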