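import Vale.Agent.P280.T.Coarse
import Vale.Agent.P280.H127.Dual

/-!
P280, row R2 over the definitions `T/Defs`: weights of homogeneous parameters and tangent weights,
the dimension of the tangent space, incoming points.
-/

set_option linter.unusedSectionVars false

open DirectSum

namespace Vale.Agent.P280.H127

open Vale.Agent.P280.T

section
variable {M : Type} [AddCommGroup M] [DecidableEq M] {Γ : Type} [AddCommGroup Γ] [DecidableEq Γ]
variable {R : Type} [CommRing R] [Algebra ℂ R]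

/-- induction over homogeneous components, index any additive monoid -/
theorem hom_ind' {ι : Type} [AddMonoid ι] [DecidableEq ι] (𝒜 : ι → Submodule ℂ R)
    [GradedAlgebra 𝒜] {P : R → Prop} (h0 : P 0) (hadd : ∀ x y, P x → P y → P (x + y))
    (hh : ∀ i, ∀ x ∈ 𝒜 i, P x) (x : R) : P x := by
  classical
  rw [← DirectSum.sum_support_decompose 𝒜 x]
  exact Finset.sum_induction _ P hadd h0 fun i _ => hh i _ (decompose 𝒜 x i).2

theorem algHom_ext_hom {ι : Type} [AddMonoid ι] [DecidableEq ι] (𝒜 : ι → Submodule ℂ R)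
    [GradedAlgebra 𝒜] {f g : R →ₐ[ℂ] ℂ} (h : ∀ i, ∀ a ∈ 𝒜 i, f a = g a) : f = g := by
  ext x
  exact hom_ind' 𝒜 (P := fun x => f x = g x) (by simp) (fun x y hx hy => by
    rw [map_add, map_add, hx, hy]) (fun i a ha => h i a ha) x

/-- relative weight `w m - d γ` -/
def rl (w : M →+ Γ) (γ : Γ) : ℕ × M →+ Γ :=
  w.comp (AddMonoidHom.snd ℕ M) - (multiplesHom Γ γ).comp (AddMonoidHom.fst ℕ M)

theorem rl_apply (w : M →+ Γ) (γ : Γ) (d : ℕ) (m : M) : rl w γ (d, m) = w m - d • γ := rfl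

variable {𝒜 : ℕ × M → Submodule ℂ R} [GradedAlgebra 𝒜]

/-- fixed points of a coarser torus -/
theorem fix_iff {q : R →ₐ[ℂ] ℂ} {w : M →+ Γ} {γ : Γ} :
    Fix (coarse 𝒜 (rl w γ)) q ↔ ∀ (d : ℕ) (m : M), ∀ h ∈ 𝒜 (d, m), q h ≠ 0 → w m = d • γ := by
  constructor
  · intro H d m h hh hne
    by_contra hcon
    refine hne (H (rl w γ (d, m)) ?_ h (le_coarse 𝒜 _ _ hh))
    rw [rl_apply]
    exact sub_ne_zero.mpr hcon
  · intro H k hk x hx
    refine coarse_induction (P := fun x => q x = 0) (map_zero q) (fun a b ha hb => by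
      rw [map_add, ha, hb, add_zero]) ?_ hx
    rintro ⟨d, m⟩ hi h hh
    by_contra hne
    have := H d m h hh hne
    rw [rl_apply, this, sub_self] at hi
    exact hk hi.symm

theorem fix_of_isFixed {q : R →ₐ[ℂ] ℂ} {μ : M} (hq : IsFixed 𝒜 q μ) :
    Fix (coarse 𝒜 (rl (AddMonoidHom.id M) μ)) q := fix_iff.mpr hq

theorem fix_trivial (q : R →ₐ[ℂ] ℂ) : Fix (coarse 𝒜 (0 : ℕ × M →+ Unit)) q :=
  fun _ hw => absurd rfl hw

/-- vectors of weight `χ` -/
theorem weight_iff {v : R →ₗ[ℂ] ℂ} {w : M →+ Γ} {γ χ : Γ} :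
    (∀ k, k ≠ χ → ∀ x ∈ coarse 𝒜 (rl w γ) k, v x = 0) ↔
      ∀ (d : ℕ) (m : M), ∀ h ∈ 𝒜 (d, m), v h ≠ 0 → w m = d • γ + χ := by
  constructor
  · intro H d m h hh hne
    by_contra hcon
    refine hne (H (rl w γ (d, m)) ?_ h (le_coarse 𝒜 _ _ hh))
    rw [rl_apply]
    intro h1
    exact hcon (by rw [← h1]; abel)
  · intro H k hk x hx
    refine coarse_induction (P := fun x => v x = 0) (map_zero v) (fun a b ha hb => by
      rw [map_add, ha, hb, add_zero]) ?_ hx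
    rintro ⟨d, m⟩ hi h hh
    by_contra hne
    have := H d m h hh hne
    rw [rl_apply, this] at hi
    exact hk (by rw [← hi]; abel)

theorem noeth (hX : IsTorusManifold 𝒜) : IsNoetherianRing R := by
  have := hX.finiteType
  exact Algebra.FiniteType.isNoetherianRing ℂ R

/-- homogeneous parameters at a non-vertex fixed by a (coarser) torus -/
theorem exists_params_T (hX : IsTorusManifold 𝒜) {f : ℕ × M →+ Γ} {q : R →ₐ[ℂ] ℂ}
    (hv : ¬ IsVertex 𝒜 q) (hq : Fix (coarse 𝒜 f) q) :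
    ∃ (n : ℕ) (u : Fin n → R) (wt : Fin n → Γ), Gens (coarse 𝒜 f) q u wt ∧
      (n : ℕ∞) = (mx q).height := by
  have := noeth hX
  exact exists_params hq (hX.smooth q hv (mx q) rfl)

/-- **the dimension of the tangent space** of the cone at a non-vertex is the height of its
maximal ideal -/
theorem finrank_tangent (hX : IsTorusManifold 𝒜) {q : R →ₐ[ℂ] ℂ} (hv : ¬ IsVertex 𝒜 q)
    {S : Submodule ℂ (R →ₗ[ℂ] ℂ)} (hS : ∀ v, v ∈ S ↔ IsTangent q v) :
    FiniteDimensional ℂ S ∧ ((Module.finrank ℂ S : ℕ) : ℕ∞) = (RingHom.ker q).height := by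
  classical
  have := noeth hX
  obtain ⟨n, u, wt, G, hn⟩ := exists_params_T hX (f := (0 : ℕ × M →+ Unit)) hv (fix_trivial q)
  obtain ⟨v, hvT, hvu, -, hsp⟩ := G.exists_dual (fix_trivial q) hn.le
  set b : Fin n → S := fun i => ⟨v i, (hS _).mpr (hvT i)⟩ with hb
  have hli : LinearIndependent ℂ b := by
    rw [Fintype.linearIndependent_iff]
    intro c hc i
    have h1 : (∑ j, c j • v j) (u i) = 0 := by
      have h2 := congrArg Subtype.val hc
      rw [Submodule.coe_sum] at h2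
      have h3 : ∑ j, ((c j • b j : S) : R →ₗ[ℂ] ℂ) = ∑ j, c j • v j := rfl
      rw [← h3, h2]
      rfl
    rw [LinearMap.sum_apply] at h1
    simpa [hvu] using h1
  have hspan : ⊤ ≤ Submodule.span ℂ (Set.range b) := by
    rintro ⟨ξ, hξ⟩ -
    have e : (⟨ξ, hξ⟩ : S) = ∑ i, ξ (u i) • b i := by
      refine Subtype.ext ?_
      rw [Submodule.coe_sum]
      exact hsp ξ ((hS _).mp hξ)
    rw [e]
    exact Submodule.sum_mem _ fun i _ => Submodule.smul_mem _ _ (Submodule.subset_span ⟨i, rfl⟩)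
  have B : Module.Basis (Fin n) ℂ S := Module.Basis.mk hli hspan
  refine ⟨Module.Finite.of_basis B, ?_⟩
  rw [Module.finrank_eq_card_basis B, Fintype.card_fin]
  exact hn

/-- **every tangent vector at a fixed point is a sum of weight vectors** -/
theorem mem_span_weight (hX : IsTorusManifold 𝒜) {q : R →ₐ[ℂ] ℂ} (hv : ¬ IsVertex 𝒜 q) {μ : M}
    (hq : IsFixed 𝒜 q μ) {ξ : R →ₗ[ℂ] ℂ} (hξ : IsTangent q ξ) :
    ξ ∈ Submodule.span ℂ {v | IsTangent q v ∧ ∃ χ, HasWeight 𝒜 μ χ v} := by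
  have := noeth hX
  obtain ⟨n, u, wt, G, hn⟩ := exists_params_T hX hv (fix_of_isFixed hq)
  obtain ⟨v, hvT, -, hvw, hsp⟩ := G.exists_dual (fix_of_isFixed hq) hn.le
  rw [hsp ξ hξ]
  exact Submodule.sum_mem _ fun i _ => Submodule.smul_mem _ _
    (Submodule.subset_span ⟨hvT i, wt i, weight_iff.mp (hvw i)⟩)

section weights

variable {q : R →ₐ[ℂ] ℂ} {w : M →+ Γ} {γ : Γ} {n : ℕ} {u : Fin n → R} {wt : Fin n → Γ}

/-- a tangent vector of pure weight `χ`, not zero, has its weight among the `wt i` -/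
theorem wt_of_weight (hX : IsTorusManifold 𝒜) (hq : Fix (coarse 𝒜 (rl w γ)) q)
    (G : Gens (coarse 𝒜 (rl w γ)) q u wt) (hn : (n : ℕ∞) = (mx q).height) {ξ : R →ₗ[ℂ] ℂ} {χ : Γ}
    (hξ : IsTangent q ξ) (hw : ∀ (d : ℕ) (m : M), ∀ h ∈ 𝒜 (d, m), ξ h ≠ 0 → w m = d • γ + χ)
    (hne : ξ ≠ 0) : ∃ i, wt i = χ := by
  have := noeth hX
  obtain ⟨v, -, -, -, hsp⟩ := G.exists_dual hq hn.le
  by_contra hcon
  push Not at hcon
  apply hne
  rw [hsp ξ hξ]
  refine Finset.sum_eq_zero fun i _ => ?_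
  rw [weight_iff.mpr hw (wt i) (hcon i) _ (G.hom i), zero_smul]

/-- a dual vector: a nonzero tangent vector of pure weight `wt i`, nonzero on a homogeneous
element -/
theorem exists_weight_vector (hX : IsTorusManifold 𝒜) (hq : Fix (coarse 𝒜 (rl w γ)) q)
    (G : Gens (coarse 𝒜 (rl w γ)) q u wt) (hn : (n : ℕ∞) = (mx q).height) (i : Fin n) :
    ∃ v : R →ₗ[ℂ] ℂ, IsTangent q v ∧
      (∀ (d : ℕ) (m : M), ∀ h ∈ 𝒜 (d, m), v h ≠ 0 → w m = d • γ + wt i) ∧
      (∀ j, v (u j) = if i = j then 1 else 0) ∧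
      ∃ (d : ℕ) (m : M), ∃ h ∈ 𝒜 (d, m), v h ≠ 0 := by
  have := noeth hX
  obtain ⟨v, hvT, hvu, hvw, -⟩ := G.exists_dual hq hn.le
  refine ⟨v i, hvT i, weight_iff.mp (hvw i), hvu i, ?_⟩
  by_contra hcon
  push Not at hcon
  have h1 : v i (u i) = 0 := by
    refine coarse_induction (P := fun x => v i x = 0) (map_zero _) (fun a b ha hb => by
      rw [map_add, ha, hb, add_zero]) ?_ (G.hom i)
    rintro ⟨d, m⟩ - h hh
    exact hcon d m h hh
  rw [hvu, if_pos rfl] at h1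
  exact one_ne_zero h1

end weights

section torus

variable {q : R →ₐ[ℂ] ℂ} {μ : M} {n : ℕ} {u : Fin n → R} {wt : Fin n → M}

/-- tangent weights are weights of parameters -/
theorem wt_of_tangentWeight (hX : IsTorusManifold 𝒜) (hq : IsFixed 𝒜 q μ)
    (G : Gens (coarse 𝒜 (rl (AddMonoidHom.id M) μ)) q u wt) (hn : (n : ℕ∞) = (mx q).height)
    {χ : M} (hχ : TangentWeight 𝒜 q μ χ) : ∃ i, wt i = χ := by
  obtain ⟨v, hv, hw, hne⟩ := hχ
  refine wt_of_weight hX (fix_of_isFixed hq) G hn hv hw ?_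
  rintro rfl
  obtain ⟨d, m, h, -, h1⟩ := hne 0
  simp at h1

/-- nonzero weights of parameters are tangent weights -/
theorem tangentWeight_of_wt (hX : IsTorusManifold 𝒜) (hq : IsFixed 𝒜 q μ)
    (G : Gens (coarse 𝒜 (rl (AddMonoidHom.id M) μ)) q u wt) (hn : (n : ℕ∞) = (mx q).height)
    {i : Fin n} (hi : wt i ≠ 0) : TangentWeight 𝒜 q μ (wt i) := by
  obtain ⟨v, hv, hw, -, d, m, h, hh, hne⟩ := exists_weight_vector hX (fix_of_isFixed hq) G hn i
  refine ⟨v, hv, hw, fun c => ⟨d, m, h, hh, ?_⟩⟩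
  have h1 : q h = 0 := by
    by_contra h2
    have h3 := hq d m h hh h2
    have h4 := hw d m h hh hne
    rw [AddMonoidHom.id_apply, h3] at h4
    exact hi (left_eq_add.mp h4)
  rw [h1, mul_zero]
  exact hne

/-- the Euler vector -/
theorem exists_euler (𝒜 : ℕ × M → Submodule ℂ R) [GradedAlgebra 𝒜] (q : R →ₐ[ℂ] ℂ) :
    ∃ E : R →ₗ[ℂ] ℂ, IsTangent q E ∧ ∀ (d : ℕ) (m : M), ∀ h ∈ 𝒜 (d, m), E h = d * q h := by
  classical
  set E : R →ₗ[ℂ] ℂ := (DirectSum.toModule ℂ (ℕ × M) ℂ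
    (fun i => ((i.1 : ℂ) • q.toLinearMap).comp (𝒜 i).subtype)).comp
      (DirectSum.decomposeLinearEquiv 𝒜).toLinearMap with hE
  have hE1 : ∀ i, ∀ h ∈ 𝒜 i, E h = (i.1 : ℂ) * q h := by
    intro i h hh
    simp only [hE, LinearMap.comp_apply, LinearEquiv.coe_coe, DirectSum.decomposeLinearEquiv_apply]
    rw [DirectSum.decompose_of_mem 𝒜 hh]
    erw [DirectSum.toModule_lof]
    rfl
  refine ⟨E, ?_, fun d m h hh => hE1 (d, m) h hh⟩
  intro a b
  refine hom_ind' 𝒜 (P := fun a => E (a * b) = q a * E b + q b * E a) ?_ ?_ ?_ a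
  · simp
  · intro x y hx hy
    rw [add_mul, map_add, map_add, map_add, hx, hy]; ring
  · intro i x hx
    refine hom_ind' 𝒜 (P := fun b => E (x * b) = q x * E b + q b * E x) ?_ ?_ ?_ b
    · simp
    · intro y z hy hz
      rw [mul_add, map_add, map_add, map_add, hy, hz]; ring
    · intro j y hy
      rw [hE1 _ _ (SetLike.mul_mem_graded hx hy), hE1 _ _ hx, hE1 _ _ hy, map_mul, Prod.fst_add,
        Nat.cast_add]
      ring

end torus
end

end Vale.Agent.P280.H127
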