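import Vale.Agent.P280.H127.Trans
import Vale.Agent.P280.H939.Grp
import Vale.Agent.P280.H587.CorA

/-!
P280 (T3) for tori: the group generated by the flows of the fields acts transitively on the
non-vertices, if its orbits are open.
-/

open DirectSum Vale.Agent.P280.T

namespace Vale.Agent.P280.H127

section
variable {M : Type} [AddCommGroup M] [DecidableEq M] {R : Type} [CommRing R] [Algebra ℂ R]

/-- (T2) : the orbits are open -/
def OpenOrbits (𝒜 : ℕ × M → Submodule ℂ R) : Prop :=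
  ∀ z : R →ₐ[ℂ] ℂ, ¬ IsVertex 𝒜 z → ∃ (F : Finset R) (ε : ℝ), 0 < ε ∧
    ∀ z' : R →ₐ[ℂ] ℂ, ¬ IsVertex 𝒜 z' → (∀ f ∈ F, ‖z' f - z f‖ < ε) → H939.OrbRel 𝒜 z z'

variable {𝒜 : ℕ × M → Submodule ℂ R} [GradedAlgebra 𝒜]

theorem openRel_co (hfin : ∀ d, FiniteDimensional ℂ (H939.deg 𝒜 d)) (hO : OpenOrbits 𝒜)
    (l : M →+ ℤ) : OpenRel (H587.co 𝒜 l) (H939.OrbRel 𝒜) where
  symm h := h.symm
  trans h h' := h.trans h'
  torus c hc p q h := by
    obtain ⟨F, hF, hF'⟩ := H939.torus_mem hfin l hc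
    refine ⟨F, hF, fun x => ?_⟩
    have h1 : q = p.comp (F : R →ₐ[ℂ] R) := by
      refine algHom_ext_graded 𝒜 ?_
      rintro ⟨d, m⟩ x hx
      change q x = p (F x)
      rw [hF' d m x hx, map_smul, smul_eq_mul, h d (l m) x (H587.mem_co hx)]
    rw [h1]
    rfl
  scalar c hc p q h := by
    obtain ⟨F, hF, hF'⟩ := H939.scalar_mem hfin hc
    refine ⟨F, hF, fun x => ?_⟩
    have h1 : q = p.comp (F : R →ₐ[ℂ] R) := by
      refine algHom_ext_graded 𝒜 ?_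
      rintro ⟨d, m⟩ x hx
      change q x = p (F x)
      rw [hF' d m x hx, map_smul, smul_eq_mul, h d (l m) x (H587.mem_co hx)]
    rw [h1]
    rfl
  near z hz := by
    obtain ⟨F, ε, hε, h⟩ := hO z fun hv => hz (H587.isVertex_co.2 hv)
    exact ⟨F, ε, hε, fun z' hz' hn => h z' (fun hv => hz' (H587.isVertex_co.2 hv)) hn⟩

/-- **(T3)** for a generic one-parameter group `l` : if all the fixed points of the torus but `p`
have a negative weight, all the non-vertices lie in the orbit of `p`. -/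
theorem orbRel_of_neg (hX : IsTorusManifold 𝒜) (hfin : ∀ d, FiniteDimensional ℂ (H939.deg 𝒜 d))
    (hO : OpenOrbits 𝒜) {l : M →+ ℤ} (hl : Set.InjOn l (H587.wts 𝒜)) {p : R →ₐ[ℂ] ℂ}
    (hneg : ∀ (x : R →ₐ[ℂ] ℂ) (ν : M), ¬ IsVertex 𝒜 x → IsFixed 𝒜 x ν → ¬ SamePoint 𝒜 p x →
      ∃ χ, TangentWeight 𝒜 x ν χ ∧ l χ < 0) {z : R →ₐ[ℂ] ℂ} (hz : ¬ IsVertex 𝒜 z) :
    H939.OrbRel 𝒜 z p := by
  refine (openRel_co hfin hO l).all (H587.isTorusManifold_co hX) ?_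
    fun hv => hz (H587.isVertex_co.1 hv)
  intro x k hx hxk hs
  have hx0 : ¬ IsVertex 𝒜 x := fun hv => hx (H587.isVertex_co.2 hv)
  obtain ⟨ν, g, hg, hxg⟩ := (not_isVertex_iff hX.gen x).mp hx0
  have hk : l ν = k := by
    have := hxk 1 (l ν) g (H587.mem_co hg) hxg
    rwa [one_smul] at this
  have hν : IsFixed 𝒜 x ν := by
    refine H587.isFixed_of_one hX fun m h hh hne => ?_
    apply hl ⟨h, hh, fun h0 => hne (by rw [h0, map_zero])⟩
      ⟨g, hg, fun h0 => hxg (by rw [h0, map_zero])⟩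
    have := hxk 1 (l m) h (H587.mem_co hh) hne
    rw [one_smul] at this
    rw [this, hk]
  have hs' : ¬ SamePoint 𝒜 p x := by
    rintro ⟨c, hc, hc'⟩
    refine hs ⟨c, hc, fun d k h hh => ?_⟩
    refine H587.co_induction (P := fun h => x h = c ^ d * p h) (by simp) (fun a b ha hb => ?_)
      (fun m _ h hh => hc' d m h hh) hh
    rw [map_add, map_add, ha, hb, mul_add]
  obtain ⟨χ, hχ, hχ0⟩ := hneg x ν hx0 hν hs'
  refine ⟨l χ, ?_, hχ0⟩
  obtain ⟨v, hv, hw, hc⟩ := hχ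
  obtain ⟨d, m, h, hh, hne⟩ := hc 0
  rw [zero_mul, zero_mul] at hne
  rw [← hk]
  exact H587.tangentWeight_of_ne (H587.isFixed_co hν) hχ0.ne hv (H587.hasWeight_co hw) d (l m)
    (H587.mem_co hh) hne

omit [AddCommGroup M] [DecidableEq M] [GradedAlgebra 𝒜] in
/-- an element of the group maps elements of degree `d` to elements of degree `d` -/
theorem exists_of_orbRel (hfin : ∀ d, FiniteDimensional ℂ (H939.deg 𝒜 d)) {p q : R →ₐ[ℂ] ℂ}
    (h : H939.OrbRel 𝒜 p q) : ∃ F : R ≃ₐ[ℂ] R,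
      (∀ (d : ℕ) (m : M), ∀ h ∈ 𝒜 (d, m), F h ∈ ⨆ m' : M, 𝒜 (d, m')) ∧ ∀ h, q h = p (F h) := by
  obtain ⟨F, hF, hF'⟩ := h
  exact ⟨F, fun d m h hh => (H939.Gam.graded hfin hF).1 d h
    ((le_iSup (fun m : M => 𝒜 (d, m)) m) hh), hF'⟩

end

section
variable {r : ℕ} {R : Type} [CommRing R] [Algebra ℂ R] {𝒜 : ℕ × (Fin r → ℤ) → Submodule ℂ R}
  [GradedAlgebra 𝒜]

/-- Every one-parameter group can be replaced by a generic one. -/
theorem exists_generic_of (hX : IsTorusManifold 𝒜) (l : (Fin r → ℤ) →+ ℤ) :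
    ∃ l' : (Fin r → ℤ) →+ ℤ, Set.InjOn l' (H587.wts 𝒜) ∧
      ∀ (x : R →ₐ[ℂ] ℂ) (ν χ : Fin r → ℤ), ¬ IsVertex 𝒜 x → IsFixed 𝒜 x ν →
        TangentWeight 𝒜 x ν χ → l χ < 0 → l' χ < 0 := by
  obtain ⟨g, hg⟩ := H587.exists_generic (S := H587.wts 𝒜) (finite_weights hX)
  obtain ⟨K, hK0, hK⟩ := H587.exists_bound (S := H587.wts 𝒜) (finite_weights hX) g
  let l' : (Fin r → ℤ) →+ ℤ := (2 * K + 1) • l + g
  have hl' : ∀ m, l' m = (2 * K + 1) * l m + g m := fun m => by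
    simp [l']
  refine ⟨l', ?_, ?_⟩
  · intro a ha b hb hab
    have h1 := hK a ha b hb
    rw [map_sub] at h1
    rw [hl', hl'] at hab
    obtain ⟨h2, h3⟩ := abs_le.1 h1
    have h4 : l a = l b := by
      by_contra hne
      rcases lt_or_gt_of_ne hne with h | h
      · have : (2 * K + 1) * 1 ≤ (2 * K + 1) * (l b - l a) :=
          mul_le_mul_of_nonneg_left (by omega) (by omega)
        have h5 : (2 * K + 1) * (l b - l a) = (2 * K + 1) * l b - (2 * K + 1) * l a := by ring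
        linarith
      · have : (2 * K + 1) * 1 ≤ (2 * K + 1) * (l a - l b) :=
          mul_le_mul_of_nonneg_left (by omega) (by omega)
        have h5 : (2 * K + 1) * (l a - l b) = (2 * K + 1) * l a - (2 * K + 1) * l b := by ring
        linarith
    rw [h4] at hab
    exact hg ha hb (by linarith)
  · intro x ν χ hx hν hχ hneg
    obtain ⟨h1, h2⟩ := H587.tangentWeight_mem hX hx hν hχ
    have h3 := hK _ h2 _ h1
    rw [add_sub_cancel_left] at h3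
    obtain ⟨h4, h5⟩ := abs_le.1 h3
    rw [hl']
    have : (2 * K + 1) * 1 ≤ (2 * K + 1) * (- l χ) :=
      mul_le_mul_of_nonneg_left (by omega) (by omega)
    linarith

/-- **(T3)** : if all the fixed points of the torus but `p` have a weight which is negative for `l`,
then all the non-vertices lie in one orbit. -/
theorem orbRel_all (hX : IsTorusManifold 𝒜) (hfin : ∀ d, FiniteDimensional ℂ (H939.deg 𝒜 d))
    (hO : OpenOrbits 𝒜) (l : (Fin r → ℤ) →+ ℤ) {p : R →ₐ[ℂ] ℂ}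
    (hneg : ∀ (x : R →ₐ[ℂ] ℂ) (ν : Fin r → ℤ), ¬ IsVertex 𝒜 x → IsFixed 𝒜 x ν →
      ¬ SamePoint 𝒜 p x → ∃ χ, TangentWeight 𝒜 x ν χ ∧ l χ < 0) {z z' : R →ₐ[ℂ] ℂ}
    (hz : ¬ IsVertex 𝒜 z) (hz' : ¬ IsVertex 𝒜 z') : H939.OrbRel 𝒜 z z' := by
  obtain ⟨l', h1, h2⟩ := exists_generic_of hX l
  have hneg' : ∀ (x : R →ₐ[ℂ] ℂ) (ν : Fin r → ℤ), ¬ IsVertex 𝒜 x → IsFixed 𝒜 x ν →
      ¬ SamePoint 𝒜 p x → ∃ χ, TangentWeight 𝒜 x ν χ ∧ l' χ < 0 := by
    intro x ν hx hν hs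
    obtain ⟨χ, hχ, hχ0⟩ := hneg x ν hx hν hs
    exact ⟨χ, hχ, h2 x ν χ hx hν hχ hχ0⟩
  exact (orbRel_of_neg hX hfin hO h1 hneg' hz).trans
    (orbRel_of_neg hX hfin hO h1 hneg' hz').symm

end

end Vale.Agent.P280.H127
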